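import Mathlib

/-! Weak sequential compactness and asymptotically p-additive norms. -/

namespace Vale.Agent.P084.MP

open Filter Topology Metric Set

section

variable {X Y : Type*} [NormedAddCommGroup X] [NormedSpace ℝ X]
  [NormedAddCommGroup Y] [NormedSpace ℝ Y]

/-- Weak convergence of a sequence. -/
def WTendsto (x : ℕ → X) (z : X) : Prop :=
  ∀ l : StrongDual ℝ X, Tendsto (fun n => l (x n)) atTop (𝓝 (l z))

/-- The two-term p-norm. -/
noncomputable def lN (p a b : ℝ) : ℝ := (a ^ p + b ^ p) ^ p⁻¹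

variable (X) in
/-- Bounded sequences have weakly convergent subsequences. -/
def WCompact : Prop :=
  ∀ x : ℕ → X, (∃ C, ∀ n, ‖x n‖ ≤ C) → ∃ z, ∃ k : ℕ → ℕ, StrictMono k ∧ WTendsto (x ∘ k) z

variable (X) in
/-- The norm is asymptotically p-additive along weakly null sequences. -/
def Asymp (p : ℝ) : Prop :=
  ∀ (u : X) (x : ℕ → X) (τ : ℝ), WTendsto x 0 → Tendsto (fun n => ‖x n‖) atTop (𝓝 τ) →
    Tendsto (fun n => ‖u + x n‖) atTop (𝓝 (lN p ‖u‖ τ))

theorem wTendsto_const (z : X) : WTendsto (fun _ => z) z := fun _ => tendsto_const_nhds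

theorem WTendsto.add {x x' : ℕ → X} {z z' : X} (h : WTendsto x z) (h' : WTendsto x' z') :
    WTendsto (fun n => x n + x' n) (z + z') := fun l => by simpa using (h l).add (h' l)

theorem WTendsto.sub {x x' : ℕ → X} {z z' : X} (h : WTendsto x z) (h' : WTendsto x' z') :
    WTendsto (fun n => x n - x' n) (z - z') := fun l => by simpa using (h l).sub (h' l)

theorem WTendsto.neg {x : ℕ → X} {z : X} (h : WTendsto x z) :
    WTendsto (fun n => -x n) (-z) := fun l => by simpa using (h l).neg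

theorem WTendsto.sub_self {x : ℕ → X} {z : X} (h : WTendsto x z) :
    WTendsto (fun n => x n - z) 0 := by simpa using h.sub (wTendsto_const z)

theorem WTendsto.comp {x : ℕ → X} {z : X} (h : WTendsto x z) {k : ℕ → ℕ}
    (hk : Tendsto k atTop atTop) : WTendsto (x ∘ k) z := fun l => (h l).comp hk

theorem WTendsto.smul {x : ℕ → X} (h : WTendsto x 0) {c : ℕ → ℝ} {C : ℝ}
    (hc : ∀ n, |c n| ≤ C) : WTendsto (fun n => c n • x n) 0 := fun l => by
  have h0 := h l
  rw [map_zero] at h0 ⊢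
  refine squeeze_zero_norm (fun n => ?_) (by simpa using (h0.abs.const_mul C))
  rw [map_smul, smul_eq_mul, Real.norm_eq_abs, abs_mul]
  exact mul_le_mul_of_nonneg_right (hc n) (abs_nonneg _)

theorem WTendsto.map {x : ℕ → X} {z : X} (h : WTendsto x z) (D : X →L[ℝ] Y) :
    WTendsto (fun n => D (x n)) (D z) := fun l => h (l.comp D)

theorem WTendsto.unique {x : ℕ → X} {z z' : X} (h : WTendsto x z) (h' : WTendsto x z') :
    z = z' :=
  (SeparatingDual.eq_iff_forall_dual_eq (R := ℝ)).2 fun l => tendsto_nhds_unique (h l) (h' l)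

theorem wTendsto_of_tendsto {x : ℕ → X} {z : X} (h : Tendsto x atTop (𝓝 z)) : WTendsto x z :=
  fun l => (l.continuous.tendsto z).comp h

theorem WTendsto.norm_le {x : ℕ → X} {z : X} {C : ℝ} (h : WTendsto x z)
    (hC : ∀ᶠ n in atTop, ‖x n‖ ≤ C) : ‖z‖ ≤ C := by
  obtain ⟨g, hg, hgz⟩ := exists_dual_vector'' ℝ z
  have := le_of_tendsto (h g) (b := C) (hC.mono fun n hn =>
    ((le_abs_self _).trans (g.le_opNorm (x n))).trans
      ((mul_le_of_le_one_left (norm_nonneg _) hg).trans hn))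
  rwa [hgz] at this

theorem WTendsto.norm_le_of_tendsto {x : ℕ → X} {z : X} {r : ℝ} (h : WTendsto x z)
    (hr : Tendsto (fun n => ‖x n‖) atTop (𝓝 r)) : ‖z‖ ≤ r :=
  le_of_forall_gt_imp_ge_of_dense fun _ ha =>
    h.norm_le ((hr.eventually (gt_mem_nhds ha)).mono fun _ => le_of_lt)

theorem mem_of_wTendsto {M : Submodule ℝ X} (hM : IsClosed (M : Set X)) {x : ℕ → X} {z : X}
    (hx : ∀ n, x n ∈ M) (h : WTendsto x z) : z ∈ M := by
  by_contra hz
  obtain ⟨l, u, hl, hu⟩ := geometric_hahn_banach_closed_point M.convex hM hz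
  have h1 : l z ≤ u := le_of_tendsto' (h l) fun n => (hl _ (hx n)).le
  linarith

/-- Weak convergence in a subspace from weak convergence in the whole space. -/
theorem wTendsto_subtype {M : Submodule ℝ X} {x : ℕ → M} {z : M}
    (h : WTendsto (fun n => (x n : X)) (z : X)) : WTendsto x z := fun l => by
  obtain ⟨g, hg, -⟩ := exists_extension_norm_eq M l
  simpa [hg] using h g

end

section Real

variable {p : ℝ}

theorem lN_nonneg {a b : ℝ} (ha : 0 ≤ a) (hb : 0 ≤ b) : 0 ≤ lN p a b :=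
  Real.rpow_nonneg (add_nonneg (Real.rpow_nonneg ha p) (Real.rpow_nonneg hb p)) _

theorem lN_rpow (hp : p ≠ 0) {a b : ℝ} (ha : 0 ≤ a) (hb : 0 ≤ b) :
    lN p a b ^ p = a ^ p + b ^ p :=
  Real.rpow_inv_rpow (add_nonneg (Real.rpow_nonneg ha p) (Real.rpow_nonneg hb p)) hp

theorem tendsto_lN {ι : Type*} {F : Filter ι} (hp : 0 < p) {a b : ι → ℝ} {A B : ℝ}
    (ha : Tendsto a F (𝓝 A)) (hb : Tendsto b F (𝓝 B)) :
    Tendsto (fun i => lN p (a i) (b i)) F (𝓝 (lN p A B)) :=
  ((ha.rpow_const (Or.inr hp.le)).add (hb.rpow_const (Or.inr hp.le))).rpow_const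
    (Or.inr (inv_nonneg.2 hp.le))

theorem lN_zero (hp : p ≠ 0) {b : ℝ} (hb : 0 ≤ b) : lN p 0 b = b := by
  rw [lN, Real.zero_rpow hp, zero_add, Real.rpow_rpow_inv hb hp]

theorem exists_tendsto_subseq {a : ℕ → ℝ} {C : ℝ} (h : ∀ n, |a n| ≤ C) :
    ∃ r, ∃ k : ℕ → ℕ, StrictMono k ∧ Tendsto (a ∘ k) atTop (𝓝 r) := by
  obtain ⟨r, -, k, hk, hr⟩ := tendsto_subseq_of_bounded (isBounded_Icc (-C) C) (x := a)
    fun n => abs_le.1 (h n)
  exact ⟨r, k, hk, hr⟩

end Real

end Vale.Agent.P084.MP
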