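import Vale.Agent.P084.MP.Point

/-! A point at which a sphere-isometric map has a derivative that is isometric on the tangent
hyperplane. -/

namespace Vale.Agent.P084.MP

open Filter Topology Metric Set MeasureTheory
open scoped NNReal

variable {W : Type*} [NormedAddCommGroup W] [NormedSpace ℝ W]

theorem exists_dir (g : W → ℝ) {K : ℝ≥0} (hg : LipschitzWith K g) (d : ℕ → W)
    (hd : Dense (Submodule.span ℝ (range d) : Set W)) {y : W}
    (hdiff : ∀ N, DifferentiableAt ℝ (fun u : Fin N → ℝ =>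
      g (y + Fintype.linearCombination ℝ (fun i : Fin N => d i) u)) 0) :
    ∃ L : StrongDual ℝ W, (∀ h, |L h| ≤ K * ‖h‖) ∧
      ∀ h, Tendsto (fun t : ℝ => t⁻¹ * (g (y + t • h) - g y)) (𝓝[≠] 0) (𝓝 (L h)) := by
  set V := Submodule.span ℝ (range d) with hV
  let R : ℕ → Submodule ℝ W := fun N =>
    LinearMap.range (Fintype.linearCombination ℝ (fun i : Fin N => d i))
  have hR : ∀ N, R N = Submodule.span ℝ (range fun i : Fin N => d i) := fun N =>
    Fintype.range_linearCombination ℝ _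
  have hmono : ∀ {N M : ℕ}, N ≤ M → R N ≤ R M := fun {N M} h => by
    rw [hR, hR]
    refine Submodule.span_mono ?_
    rintro _ ⟨i, rfl⟩
    exact ⟨⟨i, i.2.trans_le h⟩, rfl⟩
  have hrep : ∀ h ∈ V, ∃ N, h ∈ R N := by
    intro h hh
    induction hh using Submodule.span_induction with
    | mem x hx =>
      obtain ⟨i, rfl⟩ := hx
      exact ⟨i + 1, by rw [hR]; exact Submodule.subset_span ⟨⟨i, Nat.lt_succ_self i⟩, rfl⟩⟩
    | zero => exact ⟨0, zero_mem _⟩
    | add x x' _ _ hx hx' =>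
      obtain ⟨N, hN⟩ := hx; obtain ⟨M, hM⟩ := hx'
      exact ⟨max N M, add_mem (hmono (le_max_left _ _) hN) (hmono (le_max_right _ _) hM)⟩
    | smul c x _ hx => obtain ⟨N, hN⟩ := hx; exact ⟨N, Submodule.smul_mem _ _ hN⟩
  have hline : ∀ N (u : Fin N → ℝ),
      HasLineDerivAt ℝ g (fderiv ℝ (fun u : Fin N → ℝ =>
        g (y + Fintype.linearCombination ℝ (fun i : Fin N => d i) u)) 0 u) y
        (Fintype.linearCombination ℝ (fun i : Fin N => d i) u) := fun N u => by
    have := (hdiff N).hasFDerivAt.hasLineDerivAt u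
    simpa [HasLineDerivAt, map_smul] using this
  have hex : ∀ h ∈ V, LineDifferentiableAt ℝ g y h := fun h hh => by
    obtain ⟨N, u, rfl⟩ := hrep h hh
    exact (hline N u).lineDifferentiableAt
  let ℓ : V →ₗ[ℝ] ℝ :=
    { toFun := fun h => lineDeriv ℝ g y (h : W)
      map_add' := fun a b => by
        obtain ⟨N, hN⟩ := hrep _ a.2
        obtain ⟨M, hM⟩ := hrep _ b.2
        obtain ⟨u, hu⟩ := hmono (le_max_left N M) hN
        obtain ⟨u', hu'⟩ := hmono (le_max_right N M) hM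
        rw [Submodule.coe_add, ← hu, ← hu', ← map_add, (hline _ _).lineDeriv,
          (hline _ _).lineDeriv, (hline _ _).lineDeriv, map_add]
      map_smul' := fun c a => by
        obtain ⟨N, u, hu⟩ := hrep _ a.2
        rw [Submodule.coe_smul, ← hu, ← map_smul, (hline _ _).lineDeriv, (hline _ _).lineDeriv,
          map_smul, RingHom.id_apply] }
  have hℓ : ∀ h : V, ‖ℓ h‖ ≤ K * ‖h‖ := fun h => by
    exact (norm_lineDeriv_le_of_lipschitz ℝ hg).trans_eq rfl
  obtain ⟨L, hL, hLn⟩ := exists_extension_norm_eq V (ℓ.mkContinuous K hℓ)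
  have hLK : ∀ h, |L h| ≤ K * ‖h‖ := fun h => (L.le_opNorm h).trans
    (mul_le_mul_of_nonneg_right
      (hLn.le.trans (LinearMap.mkContinuous_norm_le _ K.coe_nonneg _)) (norm_nonneg _))
  refine ⟨L, hLK, fun h => Metric.tendsto_nhds.2 fun ε hε => ?_⟩
  obtain ⟨a, ha, haV⟩ : ∃ a, dist h a < ε / (4 * K + 4) ∧ a ∈ V := by
    obtain ⟨a, ha1, ha2⟩ := Metric.mem_closure_iff.1 (hd h) (ε / (4 * K + 4)) (by positivity)
    exact ⟨a, ha2, ha1⟩
  have hs := (hex a haV).hasLineDerivAt.tendsto_slope_zero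
  rw [show lineDeriv ℝ g y a = L a from (hL ⟨a, haV⟩).symm] at hs
  filter_upwards [Metric.tendsto_nhds.1 hs (ε / 2) (by positivity),
    self_mem_nhdsWithin] with t ht ht0
  rw [Real.dist_eq, smul_eq_mul] at ht
  rw [Real.dist_eq]
  rw [dist_eq_norm, lt_div_iff₀ (by positivity)] at ha
  have h1 : |t⁻¹ * (g (y + t • h) - g y) - t⁻¹ * (g (y + t • a) - g y)| ≤ K * ‖h - a‖ := by
    rw [← mul_sub, sub_sub_sub_cancel_right, abs_mul, abs_inv,
      inv_mul_le_iff₀ (abs_pos.2 ht0), ← Real.dist_eq]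
    refine (hg.dist_le_mul _ _).trans (le_of_eq ?_)
    rw [dist_add_left, dist_eq_norm, ← smul_sub, norm_smul, Real.norm_eq_abs]
    ring
  have h2 : |L a - L h| ≤ K * ‖h - a‖ := by
    rw [← map_sub, norm_sub_rev]; exact hLK _
  have h3 := abs_sub_le (t⁻¹ * (g (y + t • h) - g y)) (t⁻¹ * (g (y + t • a) - g y)) (L h)
  have h4 := abs_sub_le (t⁻¹ * (g (y + t • a) - g y)) (L a) (L h)
  nlinarith [norm_nonneg (h - a), K.coe_nonneg]

variable {X : Type*} [NormedAddCommGroup X] [NormedSpace ℝ X]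
  [CompleteSpace W] [TopologicalSpace.SeparableSpace W]

/-- Tangent data at a point near a given unit vector. -/
theorem exists_tangent (hX : WCompact X) {S : W → X} (hS : LipschitzWith 3 S)
    (hiso : ∀ a b, ‖a‖ = ‖b‖ → ‖S a - S b‖ = ‖a - b‖) {y0 : W} (hy0 : ‖y0‖ = 1) {r : ℝ}
    (hr : 0 < r) (hr1 : r ≤ 1 / 2) :
    ∃ (φ : StrongDual ℝ W) (e : W) (D : W →L[ℝ] X), ‖e‖ = 1 ∧ φ e = 1 ∧
      (∀ h, |φ h| ≤ ‖h‖) ∧ 1 - 2 * r ≤ φ y0 ∧ ∀ h, φ h = 0 → ‖D h‖ = ‖h‖ := by
  let _ : MeasurableSpace W := borel W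
  have : BorelSpace W := ⟨rfl⟩
  have : Nonempty W := ⟨0⟩
  obtain ⟨e₀, he₀⟩ := TopologicalSpace.exists_dense_seq W
  set c : ℕ → ℝ := fun i => r / 2 * (1 / 2) ^ i / (‖e₀ i‖ + 1) with hc
  have hc0 : ∀ i, 0 < c i := fun i => by positivity
  set d : ℕ → W := fun i => c i • e₀ i with hd
  have hdn : ∀ i, ‖d i‖ ≤ r / 2 * (1 / 2) ^ i := fun i => by
    rw [hd, norm_smul, Real.norm_of_nonneg (hc0 i).le, hc, div_mul_eq_mul_div,
      div_le_iff₀ (by positivity)]
    exact mul_le_mul_of_nonneg_left (by linarith) (by positivity)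
  have hgeo : HasSum (fun i : ℕ => r / 2 * (1 / 2 : ℝ) ^ i) r := by
    simpa [div_mul_cancel₀] using hasSum_geometric_two.mul_left (r / 2)
  have hds : Summable fun i => ‖d i‖ :=
    Summable.of_nonneg_of_le (fun i => norm_nonneg _) hdn hgeo.summable
  have hdr : ∑' i, ‖d i‖ ≤ r := (hds.tsum_le_tsum hdn hgeo.summable).trans hgeo.tsum_eq.le
  have hdense : Dense (Submodule.span ℝ (range d) : Set W) := by
    refine Dense.mono ?_ he₀
    rintro _ ⟨i, rfl⟩
    have : e₀ i = (c i)⁻¹ • d i := by simp [hd, smul_smul, inv_mul_cancel₀ (hc0 i).ne']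
    rw [this]
    exact Submodule.smul_mem _ _ (Submodule.subset_span ⟨i, rfl⟩)
  set X0 := (Submodule.span ℝ (range S)).topologicalClosure with hX0
  have hX0c : IsClosed (X0 : Set X) := Submodule.isClosed_topologicalClosure _
  have hSmem : ∀ a, S a ∈ X0 := fun a =>
    Submodule.le_topologicalClosure _ (Submodule.subset_span ⟨a, rfl⟩)
  have hsep : TopologicalSpace.IsSeparable (X0 : Set X) := by
    rw [hX0, Submodule.topologicalClosure_coe]
    exact ((TopologicalSpace.isSeparable_range hS.continuous).span).closure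
  obtain ⟨ψ, hψ⟩ := exists_norming hsep
  let g : Option ℕ → W → ℝ := fun o => o.elim (fun v => ‖v‖) (fun j v => ψ j (S v))
  have hg : ∀ o, LipschitzWith 3 (g o) := by
    rintro (_ | j)
    · exact lipschitzWith_one_norm.weaken (by norm_num)
    · exact lipschitz_comp_apply hS (hψ.1 j)
  let Lc : ∀ N : ℕ, (Fin N → ℝ) →L[ℝ] W := fun N =>
    (Fintype.linearCombination ℝ (fun i : Fin N => d i)).toContinuousLinearMap
  let A : (Option ℕ × ℕ) ⊕ (ℕ × ℕ) → Set W := Sum.elim
    (fun q => {y | DifferentiableAt ℝ (fun u : Fin q.2 → ℝ => g q.1 (y + Lc q.2 u)) 0})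
    (fun q => fastSet ψ S (e₀ q.1) q.2)
  have hA : ∀ k, MeasurableSet (A k) := by
    rintro (⟨o, N⟩ | ⟨k, m⟩)
    · have hf : Continuous (Function.uncurry fun (y : W) (u : Fin N → ℝ) => g o (y + Lc N u)) :=
        (hg o).continuous.comp (continuous_fst.add ((Lc N).continuous.comp continuous_snd))
      exact measurable_prodMk_right (measurableSet_of_differentiableAt_with_param ℝ hf)
    · exact measurableSet_fastSet hS.continuous _ _
  obtain ⟨y, hy, hyA⟩ := exists_point d hds y0 A hA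
    (Sum.elim (fun q => q.2) (fun q => q.1 + 1)) (by
      rintro (⟨o, N⟩ | ⟨k, m⟩) b
      · show ∀ᵐ u : Fin N → ℝ, b + Lc N u ∈ A (Sum.inl (o, N))
        have := MeasureTheory.isAddHaarMeasure_volume_pi (Fin N)
        have hlip : LipschitzWith (3 * ‖Lc N‖₊) (fun u => g o (b + Lc N u)) :=
          (hg o).comp (LipschitzWith.of_dist_le_mul fun u v => by
            rw [dist_add_left]; exact (Lc N).lipschitz.dist_le_mul u v)
        filter_upwards [LipschitzWith.ae_differentiableAt (E := Fin N → ℝ) (μ := volume) hlip]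
          with u hu
        show DifferentiableAt ℝ (fun v => g o (b + Lc N u + Lc N v)) 0
        have h : DifferentiableAt ℝ (fun v : Fin N → ℝ => u + v) 0 := by fun_prop
        have h' := DifferentiableAt.comp (g := fun w => g o (b + Lc N w)) 0 (by simpa using hu) h
        simpa [Function.comp_def, map_add, add_assoc] using h'
      · have he : e₀ k = Lc (k + 1) (Pi.single (Fin.last k) (c k)⁻¹) := by
          show e₀ k = Fintype.linearCombination ℝ (fun i : Fin (k + 1) => d i)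
            (Pi.single (Fin.last k) (c k)⁻¹)
          rw [Fintype.linearCombination_apply_single]
          simp [hd, smul_smul, inv_mul_cancel₀ (hc0 k).ne']
        have := ae_fastSet (volume : Measure (Fin (k + 1) → ℝ)) hψ hS
          (fun a a' => sub_mem (hSmem a) (hSmem a')) (Lc (k + 1)) b
          (Pi.single (Fin.last k) (c k)⁻¹) m
        rw [← he] at this
        exact this)
  choose L hLK hLt using fun o => exists_dir (g o) (hg o) d hdense
    (fun N => hyA (Sum.inl (o, N)))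
  have hyn : 1 - r ≤ ‖y‖ := by
    have := norm_sub_norm_le y0 y
    rw [norm_sub_rev, hy0] at this
    linarith
  have hypos : 0 < ‖y‖ := by linarith
  set φ := L none with hφ
  have hφle : ∀ h, |φ h| ≤ ‖h‖ := fun h => le_of_tendsto (hLt none h).abs (by
    filter_upwards [self_mem_nhdsWithin] with t ht
    rw [abs_mul, abs_inv, inv_mul_le_iff₀ (abs_pos.2 ht)]
    refine (abs_norm_sub_norm_le _ _).trans (le_of_eq ?_)
    rw [add_sub_cancel_left, norm_smul, Real.norm_eq_abs])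
  have hφy : φ y = ‖y‖ := by
    refine tendsto_nhds_unique (hLt none y) (tendsto_const_nhds.congr' ?_)
    filter_upwards [self_mem_nhdsWithin,
      nhdsWithin_le_nhds (Ioi_mem_nhds (show (-1 : ℝ) < 0 by norm_num))] with t ht ht1
    have : y + t • y = (1 + t) • y := by rw [add_smul, one_smul]
    show ‖y‖ = t⁻¹ * (‖y + t • y‖ - ‖y‖)
    rw [this, norm_smul, Real.norm_of_nonneg (by linarith [mem_Ioi.1 ht1])]
    field_simp [show t ≠ 0 from ht]
    ring
  -- the derivative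
  have hex : ∀ h, ∃ z ∈ X0, ∀ j, ψ j z = L (some j) h := by
    intro h
    let t : ℕ → ℝ := fun n => 1 / ((n : ℝ) + 1)
    have ht : Tendsto t atTop (𝓝[≠] (0 : ℝ)) := tendsto_nhdsWithin_iff.2
      ⟨tendsto_one_div_add_atTop_nhds_zero_nat, Eventually.of_forall fun n =>
        show t n ≠ 0 by positivity⟩
    let q : ℕ → X := fun n => (t n)⁻¹ • (S (y + t n • h) - S y)
    have hq : ∀ n, ‖q n‖ ≤ 3 * ‖h‖ := fun n => by
      have h0 : 0 < t n := by positivity
      rw [norm_smul, Real.norm_of_nonneg (by positivity), inv_mul_le_iff₀ h0, ← dist_eq_norm]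
      refine (hS.dist_le_mul _ _).trans (le_of_eq ?_)
      rw [dist_eq_norm, add_sub_cancel_left, norm_smul, Real.norm_of_nonneg h0.le]
      push_cast; ring
    obtain ⟨z, k, hk, hz⟩ := hX q ⟨_, hq⟩
    refine ⟨z, mem_of_wTendsto hX0c (fun n => ?_) hz, fun j => ?_⟩
    · exact Submodule.smul_mem _ _ (sub_mem (hSmem _) (hSmem _))
    · refine tendsto_nhds_unique (hz (ψ j)) ((((hLt (some j) h).comp ht).comp
        hk.tendsto_atTop).congr fun n => ?_)
      simp [q, g, map_sub]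
  choose D₀ hD₀m hD₀ using hex
  have huniq : ∀ a ∈ X0, ∀ b ∈ X0, (∀ j, ψ j a = ψ j b) → a = b := fun a ha b hb hab =>
    sub_eq_zero.1 (norm_le_zero_iff.1 (hψ.2 _ (sub_mem ha hb) 0 fun j => by simp [hab j]))
  let D₁ : W →ₗ[ℝ] X :=
    { toFun := D₀
      map_add' := fun a b => huniq _ (hD₀m _) _ (add_mem (hD₀m _) (hD₀m _)) fun j => by
        simp [hD₀]
      map_smul' := fun s a => huniq _ (hD₀m _) _ (Submodule.smul_mem _ _ (hD₀m _)) fun j => by
        simp [hD₀] }
  let D : W →L[ℝ] X := D₁.mkContinuous 3 fun h => hψ.2 _ (hD₀m h) _ fun j => by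
    rw [hD₀]; exact_mod_cast hLK (some j) h
  have hDapp : ∀ j h, ψ j (D h) = L (some j) h := fun j h => hD₀ h j
  have hspeed : ∀ h, ∀ ε > 0, ∀ᶠ s in 𝓝[>] (0 : ℝ),
      ‖S (y + s • h) - S y‖ ≤ (‖D h‖ + ε) * s := by
    intro h ε hε
    obtain ⟨k, hk⟩ := he₀.exists_dist_lt h (show (0 : ℝ) < ε / 12 by positivity)
    rw [dist_eq_norm] at hk
    obtain ⟨m, hm⟩ := exists_nat_one_div_lt (show (0 : ℝ) < ε / 2 by positivity)
    obtain ⟨n, hn⟩ := hyA (Sum.inr (k, m))
    have hspd : spd ψ S y (e₀ k) ≤ ‖D (e₀ k)‖ := by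
      refine ciSup_le fun j => ?_
      have hh : HasLineDerivAt ℝ (fun v => ψ j (S v)) (L (some j) (e₀ k)) y (e₀ k) := by
        rw [hasLineDerivAt_iff_tendsto_slope_zero]
        exact hLt (some j) (e₀ k)
      rw [hh.lineDeriv, ← hDapp]
      exact abs_apply_le (hψ.1 j) _
    have hDd : ‖D (e₀ k)‖ ≤ ‖D h‖ + 3 * ‖h - e₀ k‖ := by
      have h1 := norm_le_norm_add_norm_sub' (D (e₀ k)) (D h)
      have h2 : ‖D (e₀ k) - D h‖ ≤ 3 * ‖h - e₀ k‖ := by
        rw [← map_sub, norm_sub_rev h]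
        exact (D.le_opNorm _).trans (mul_le_mul_of_nonneg_right
          (LinearMap.mkContinuous_norm_le _ (by norm_num) _) (norm_nonneg _))
      linarith
    filter_upwards [Ioo_mem_nhdsGT (show (0 : ℝ) < 1 / ((n : ℝ) + 1) by positivity)] with s hs
    have h1 := hn s hs
    have h2 : ‖S (y + s • h) - S (y + s • e₀ k)‖ ≤ 3 * (s * ‖h - e₀ k‖) := by
      rw [← dist_eq_norm]
      refine (hS.dist_le_mul _ _).trans (le_of_eq ?_)
      rw [dist_add_left, dist_eq_norm, ← smul_sub, norm_smul, Real.norm_of_nonneg hs.1.le]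
      rfl
    have h3 := norm_sub_le_norm_sub_add_norm_sub (S (y + s • h)) (S (y + s • e₀ k)) (S y)
    have h4 : (spd ψ S y (e₀ k) + 1 / ((m : ℝ) + 1)) * s + 3 * (s * ‖h - e₀ k‖) ≤
        (‖D h‖ + ε) * s := by
      have : spd ψ S y (e₀ k) + 1 / ((m : ℝ) + 1) + 3 * ‖h - e₀ k‖ ≤ ‖D h‖ + ε := by linarith
      nlinarith [mul_le_mul_of_nonneg_right this hs.1.le]
    linarith
  have htan : ∀ h, φ h = 0 → Tendsto (fun s : ℝ => s⁻¹ * ‖S (y + s • h) - S y‖) (𝓝[>] 0)
      (𝓝 ‖h‖) := by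
    intro h hh
    have h0 := (hLt none h).mono_left (nhdsGT_le_nhdsNE 0)
    rw [show L none h = 0 from hh] at h0
    have hcont : Tendsto (fun s : ℝ => ‖y + s • h‖) (𝓝[>] 0) (𝓝 ‖y‖) := by
      have hc' : Continuous fun s : ℝ => ‖y + s • h‖ := by fun_prop
      simpa using (hc'.tendsto 0).mono_left nhdsWithin_le_nhds
    refine tendsto_iff_norm_sub_tendsto_zero.2
      (squeeze_zero_norm' ?_ (by simpa using h0.abs.const_mul (4 : ℝ)))
    filter_upwards [self_mem_nhdsWithin, hcont.eventually (lt_mem_nhds hypos)] with s hs hpos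
    have hs : 0 < s := hs
    rw [norm_norm, Real.norm_eq_abs, show g none (y + s • h) - g none y = ‖y + s • h‖ - ‖y‖ from rfl,
      abs_of_pos hs]
    set b := y + s • h with hb
    set y' := (‖y‖ / ‖b‖) • b with hy'
    have hn' : ‖y'‖ = ‖y‖ := by
      rw [hy', norm_smul, Real.norm_of_nonneg (by positivity), div_mul_cancel₀ _ hpos.ne']
    have hd1 : ‖b - y'‖ = |‖b‖ - ‖y‖| := by
      rw [hy', show b - (‖y‖ / ‖b‖) • b = (1 - ‖y‖ / ‖b‖) • b by rw [sub_smul, one_smul],
        norm_smul, Real.norm_eq_abs, ← abs_norm b, ← abs_mul, abs_norm, sub_mul, one_mul,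
        div_mul_cancel₀ _ hpos.ne']
    have hd2 : |‖S b - S y‖ - ‖S y' - S y‖| ≤ 3 * ‖b - y'‖ := by
      refine (abs_norm_sub_norm_le _ _).trans ?_
      rw [sub_sub_sub_cancel_right]
      simpa [dist_eq_norm] using hS.dist_le_mul b y'
    have hd3 : |‖y' - y‖ - ‖s • h‖| ≤ ‖b - y'‖ := by
      refine (abs_norm_sub_norm_le _ _).trans (le_of_eq ?_)
      rw [norm_sub_rev b]; congr 1; rw [hb]; abel
    rw [hiso y' y hn'] at hd2
    have hnorm : ‖s • h‖ = s * ‖h‖ := by rw [norm_smul, Real.norm_of_nonneg hs.le]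
    have hid : s⁻¹ * ‖S b - S y‖ - ‖h‖ = s⁻¹ * (‖S b - S y‖ - ‖s • h‖) := by
      rw [hnorm, mul_sub, inv_mul_cancel_left₀ hs.ne']
    rw [hid, abs_mul, abs_of_pos (inv_pos.2 hs), mul_left_comm]
    refine mul_le_mul_of_nonneg_left ?_ (inv_nonneg.2 hs.le)
    have := abs_sub_le ‖S b - S y‖ ‖y' - y‖ ‖s • h‖
    rw [hd1] at hd2 hd3
    linarith
  refine ⟨φ, ‖y‖⁻¹ • y, D, ?_, ?_, hφle, ?_, fun h hh => le_antisymm ?_ ?_⟩
  · rw [norm_smul, norm_inv, norm_norm, inv_mul_cancel₀ hypos.ne']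
  · rw [map_smul, smul_eq_mul, hφy, inv_mul_cancel₀ hypos.ne']
  · have := (abs_le.1 (hφle (y - y0))).2
    rw [map_sub, hφy] at this
    linarith
  · refine hψ.2 _ (hD₀m h) _ fun j => ?_
    change |ψ j (D h)| ≤ ‖h‖
    rw [hDapp]
    refine le_of_tendsto_of_tendsto ((hLt (some j) h).mono_left (nhdsGT_le_nhdsNE 0)).abs
      (htan h hh) ?_
    filter_upwards [self_mem_nhdsWithin] with s hs
    have hs : 0 < s := hs
    rw [abs_mul, abs_of_pos (inv_pos.2 hs)]
    refine mul_le_mul_of_nonneg_left ?_ (inv_nonneg.2 hs.le)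
    show |ψ j (S (y + s • h)) - ψ j (S y)| ≤ _
    rw [← map_sub]
    exact abs_apply_le (hψ.1 j) _
  · refine le_of_forall_pos_le_add fun ε hε => le_of_tendsto (htan h hh) ?_
    filter_upwards [hspeed h ε hε, self_mem_nhdsWithin] with s hs hs0
    rw [inv_mul_le_iff₀ hs0, mul_comm]
    exact hs

end Vale.Agent.P084.MP
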