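import Vale.Agent.P084.MP.Target

/-! The two hypotheses pass to closed subspaces and to quotients. -/

namespace Vale.Agent.P084.MP

open Filter Topology Metric Set

variable {X : Type*} [NormedAddCommGroup X] [NormedSpace ℝ X]

theorem WCompact.subspace (hX : WCompact X) {M : Submodule ℝ X} (hM : IsClosed (M : Set X)) :
    WCompact M := by
  rintro x ⟨C, hC⟩
  obtain ⟨z, k, hk, hz⟩ := hX (fun n => (x n : X)) ⟨C, hC⟩
  exact ⟨⟨z, mem_of_wTendsto hM (fun n => (x (k n)).2) hz⟩, k, hk, wTendsto_subtype hz⟩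

theorem Asymp.subspace {p : ℝ} (hA : Asymp X p) (M : Submodule ℝ X) : Asymp M p :=
  fun u x τ h hτ => hA u (fun n => (x n : X)) τ (by simpa using h.map M.subtypeL) hτ

theorem lN_le {p a b a' b' : ℝ} (hp : 0 < p) (ha : 0 ≤ a) (hb : 0 ≤ b) (h1 : a ≤ a')
    (h2 : b ≤ b') : lN p a b ≤ lN p a' b' :=
  Real.rpow_le_rpow (add_nonneg (Real.rpow_nonneg ha p) (Real.rpow_nonneg hb p))
    (add_le_add (Real.rpow_le_rpow ha h1 hp.le) (Real.rpow_le_rpow hb h2 hp.le))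
    (inv_nonneg.2 hp.le)

theorem lN_self_le {p a b : ℝ} (hp : 0 < p) (ha : 0 ≤ a) (hb : 0 ≤ b) : b ≤ lN p a b :=
  (lN_zero hp.ne' hb).symm.trans_le (lN_le hp le_rfl hb ha le_rfl)

variable {Z : Type*} [NormedAddCommGroup Z] [NormedSpace ℝ Z]

/-- A norm one quotient map. -/
def MetricSurj (Q : X →L[ℝ] Z) : Prop :=
  (∀ x, ‖Q x‖ ≤ ‖x‖) ∧ ∀ z, ∀ ε > (0 : ℝ), ∃ x, Q x = z ∧ ‖x‖ ≤ ‖z‖ + ε

theorem MetricSurj.lift_seq {Q : X →L[ℝ] Z} (hQ : MetricSurj Q) {z : ℕ → Z} {τ : ℝ}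
    (hτ : Tendsto (fun n => ‖z n‖) atTop (𝓝 τ)) :
    ∃ r : ℕ → X, (∀ n, Q (r n) = z n) ∧ Tendsto (fun n => ‖r n‖) atTop (𝓝 τ) := by
  choose r hr hrn using fun n : ℕ => hQ.2 (z n) (1 / ((n : ℝ) + 1)) (by positivity)
  refine ⟨r, hr, tendsto_of_tendsto_of_tendsto_of_le_of_le hτ ?_
    (fun n => (hr n).symm ▸ hQ.1 (r n)) hrn⟩
  simpa using hτ.add tendsto_one_div_add_atTop_nhds_zero_nat

theorem WCompact.quot (hX : WCompact X) {Q : X →L[ℝ] Z} (hQ : MetricSurj Q) : WCompact Z := by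
  rintro z ⟨C, hC⟩
  choose r hr hrn using fun n : ℕ => hQ.2 (z n) 1 one_pos
  obtain ⟨a, k, hk, ha⟩ := hX r ⟨C + 1, fun n => (hrn n).trans (by linarith [hC n])⟩
  exact ⟨Q a, k, hk, by simpa [Function.comp_def, hr] using ha.map Q⟩

theorem Asymp.quot {p : ℝ} (hp : 0 < p) (hX : WCompact X) (hA : Asymp X p) {Q : X →L[ℝ] Z}
    (hQ : MetricSurj Q) : Asymp Z p := by
  intro u x τ hx hτ
  refine tendsto_of_subseq_tendsto fun ns hns => ?_
  obtain ⟨B, hB⟩ := hτ.bddAbove_range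
  obtain ⟨L, k, hk, hL⟩ := exists_tendsto_subseq (a := fun n => ‖u + x (ns n)‖)
    (C := ‖u‖ + B) fun n => by
      rw [abs_norm]; exact (norm_add_le _ _).trans (by linarith [hB ⟨ns n, rfl⟩])
  refine ⟨k, ?_⟩
  suffices L = lN p ‖u‖ τ by rw [← this]; exact hL
  let y : ℕ → Z := fun n => x (ns (k n))
  have hy : WTendsto y 0 := hx.comp (hns.comp hk.tendsto_atTop)
  have hyτ : Tendsto (fun n => ‖y n‖) atTop (𝓝 τ) := hτ.comp (hns.comp hk.tendsto_atTop)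
  have hτ0 : 0 ≤ τ := ge_of_tendsto' hyτ fun n => norm_nonneg _
  have hL' : Tendsto (fun n => ‖u + y n‖) atTop (𝓝 L) := hL
  -- upper bound
  obtain ⟨r, hr, hrτ⟩ := hQ.lift_seq hyτ
  obtain ⟨B', hB'⟩ := hrτ.bddAbove_range
  obtain ⟨a, k1, hk1, ha⟩ := hX r ⟨B', fun n => hB' ⟨n, rfl⟩⟩
  have hQa : Q a = 0 := ((ha.map Q).unique (by
    simpa [Function.comp_def, hr] using hy.comp hk1.tendsto_atTop))
  obtain ⟨σ, k2, hk2, hσ⟩ := exists_tendsto_subseq (a := fun n => ‖r (k1 n) - a‖)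
    (C := B' + ‖a‖) fun n => by
      rw [abs_norm]; exact (norm_sub_le _ _).trans (by linarith [hB' ⟨k1 n, rfl⟩])
  have hseq : Tendsto (fun n => k1 (k2 n)) atTop atTop := (hk1.comp hk2).tendsto_atTop
  have hnull : WTendsto (fun n => r (k1 (k2 n)) - a) 0 := (ha.comp hk2.tendsto_atTop).sub_self
  have hσ0 : 0 ≤ σ := ge_of_tendsto' hσ fun n => norm_nonneg _
  have hστ : σ ≤ τ := by
    have h := hA a _ σ hnull hσ
    simp only [add_sub_cancel] at h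
    rw [← tendsto_nhds_unique h (hrτ.comp hseq)]
    exact lN_self_le hp (norm_nonneg a) hσ0
  have hup : L ≤ lN p ‖u‖ τ := by
    have hc : Tendsto (fun θ : ℝ => lN p (‖u‖ + θ) τ) (𝓝[>] 0) (𝓝 (lN p ‖u‖ τ)) := by
      have h0 : Tendsto (fun θ : ℝ => ‖u‖ + θ) (𝓝[>] 0) (𝓝 ‖u‖) := by
        simpa using ((continuous_const_add ‖u‖).tendsto 0).mono_left nhdsWithin_le_nhds
      exact tendsto_lN hp h0 tendsto_const_nhds
    refine ge_of_tendsto hc ?_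
    filter_upwards [self_mem_nhdsWithin] with θ hθ
    obtain ⟨u0, hu0, hu0n⟩ := hQ.2 u θ hθ
    refine le_trans (le_of_tendsto_of_tendsto (hL'.comp hseq) (hA u0 _ σ hnull hσ)
      (Eventually.of_forall fun n => ?_)) (lN_le hp (norm_nonneg _) hσ0 hu0n hστ)
    have := hQ.1 (u0 + (r (k1 (k2 n)) - a))
    rwa [map_add, map_sub, hu0, hr, hQa, sub_zero] at this
  -- lower bound
  obtain ⟨s, hs, hsL⟩ := hQ.lift_seq hL'
  obtain ⟨B'', hB''⟩ := hsL.bddAbove_range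
  obtain ⟨b, k3, hk3, hb⟩ := hX s ⟨B'', fun n => hB'' ⟨n, rfl⟩⟩
  have hQb : Q b = u := ((hb.map Q).unique (by
    simpa [Function.comp_def, hs] using (wTendsto_const u).add (hy.comp hk3.tendsto_atTop)))
  obtain ⟨σ', k4, hk4, hσ'⟩ := exists_tendsto_subseq (a := fun n => ‖s (k3 n) - b‖)
    (C := B'' + ‖b‖) fun n => by
      rw [abs_norm]; exact (norm_sub_le _ _).trans (by linarith [hB'' ⟨k3 n, rfl⟩])
  have hseq' : Tendsto (fun n => k3 (k4 n)) atTop atTop := (hk3.comp hk4).tendsto_atTop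
  have hτσ : τ ≤ σ' := le_of_tendsto_of_tendsto (hyτ.comp hseq') hσ'
    (Eventually.of_forall fun n => by
      have := hQ.1 (s (k3 (k4 n)) - b)
      rwa [map_sub, hs, hQb, add_sub_cancel_left] at this)
  have h := hA b _ σ' (hb.comp hk4.tendsto_atTop).sub_self hσ'
  simp only [Function.comp_def, add_sub_cancel] at h
  rw [tendsto_nhds_unique (hsL.comp hseq') h] at hup ⊢
  exact le_antisymm hup (lN_le hp (norm_nonneg u) hτ0 (hQb ▸ hQ.1 b) hτσ)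

theorem metricSurj_mkQ {M : Submodule ℝ X} (N : Submodule ℝ M) [IsClosed (N : Set M)] :
    ∃ Q : M →L[ℝ] M ⧸ N, MetricSurj Q := by
  refine ⟨N.mkQ.mkContinuous 1 fun x => ?_, fun x => ?_, fun z ε hε => ?_⟩
  · rw [one_mul]; exact Submodule.Quotient.norm_mk_le N x
  · exact Submodule.Quotient.norm_mk_le N x
  · obtain ⟨x, hx, hxn⟩ := Submodule.Quotient.norm_mk_lt z hε
    exact ⟨x, hx, hxn.le⟩

end Vale.Agent.P084.MP
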