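import Vale.Agent.P084.MP.Heredity

/-! p-sums of finite-dimensional spaces are weakly compact and asymptotically p-additive. -/

namespace Vale.Agent.P084.MP

open Filter Topology Metric Set
open scoped ENNReal

variable {ι : Type*} {E : ι → Type*} [∀ i, NormedAddCommGroup (E i)] [∀ i, NormedSpace ℝ (E i)]
  {p : ℝ≥0∞} [Fact (1 ≤ p)]

omit [∀ i, NormedSpace ℝ (E i)] in
theorem norm_add_disjoint (hp : 0 < p.toReal) {f g : lp E p} (h : ∀ i, f i = 0 ∨ g i = 0) :
    ‖f + g‖ = lN p.toReal ‖f‖ ‖g‖ := by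
  have key : (fun i => ‖(f + g) i‖ ^ p.toReal) =
      fun i => ‖f i‖ ^ p.toReal + ‖g i‖ ^ p.toReal := funext fun i => by
    rw [lp.coeFn_add, Pi.add_apply]
    rcases h i with h0 | h0 <;> simp [h0, Real.zero_rpow hp.ne']
  have h1 := lp.hasSum_norm hp (f + g)
  rw [key] at h1
  rw [lN, ← h1.unique ((lp.hasSum_norm hp f).add (lp.hasSum_norm hp g)),
    Real.rpow_rpow_inv (norm_nonneg _) hp.ne']

theorem tendsto_norm_add_coord (hp : p ≠ ⊤) (hp0 : 0 < p.toReal) (u : lp E p) {x : ℕ → lp E p}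
    {τ : ℝ} (hx : ∀ i, Tendsto (fun n => x n i) atTop (𝓝 0))
    (hτ : Tendsto (fun n => ‖x n‖) atTop (𝓝 τ)) :
    Tendsto (fun n => ‖u + x n‖) atTop (𝓝 (lN p.toReal ‖u‖ τ)) := by
  classical
  refine Metric.tendsto_nhds.2 fun κ hκ => ?_
  have hcont : ContinuousAt (fun a => lN p.toReal a τ) ‖u‖ :=
    tendsto_lN hp0 tendsto_id tendsto_const_nhds
  obtain ⟨θ, hθ, hθ'⟩ := Metric.continuousAt_iff.1 hcont (κ / 4) (by positivity)
  obtain ⟨s, hs⟩ := ((Metric.tendsto_nhds.1 (lp.hasSum_single hp u)) (min θ (κ / 4))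
    (lt_min hθ (by positivity))).exists
  set u' := ∑ i ∈ s, lp.single p i (u i) with hu'
  let P : ℕ → lp E p := fun n => ∑ i ∈ s, lp.single p i (x n i)
  have hP : Tendsto P atTop (𝓝 0) := by
    rw [← Finset.sum_const_zero (s := s)]
    refine tendsto_finsetSum _ fun i _ => ?_
    have := ((lp.singleContinuousLinearMap ℝ E p i).continuous.tendsto 0).comp (hx i)
    rw [map_zero] at this
    exact this
  have happly : ∀ (a : lp E p) j, (∑ i ∈ s, lp.single p i (a i) : lp E p) j =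
      if j ∈ s then a j else 0 := fun a j => by
    rw [lp.coeFn_sum, Finset.sum_apply]
    simp only [lp.single_apply]
    simp
  have hdis : ∀ n, ‖u' + (x n - P n)‖ = lN p.toReal ‖u'‖ ‖x n - P n‖ := fun n =>
    norm_add_disjoint hp0 fun i => by
      by_cases hi : i ∈ s
      · right
        rw [lp.coeFn_sub, Pi.sub_apply]
        show x n i - (∑ j ∈ s, lp.single p j (x n j) : lp E p) i = 0
        rw [happly, if_pos hi, sub_self]
      · left; rw [hu', happly, if_neg hi]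
  have hr : Tendsto (fun n => ‖x n - P n‖) atTop (𝓝 τ) := by
    refine tendsto_of_tendsto_of_dist hτ (squeeze_zero (fun n => dist_nonneg) (fun n => ?_)
      (by simpa using hP.norm))
    rw [Real.dist_eq]
    exact (abs_norm_sub_norm_le _ _).trans (by simp)
  have h1 : Tendsto (fun n => ‖u' + (x n - P n)‖) atTop (𝓝 (lN p.toReal ‖u'‖ τ)) := by
    simp only [hdis]; exact tendsto_lN hp0 tendsto_const_nhds hr
  have hu : ‖u' - u‖ < min θ (κ / 4) := by rwa [← dist_eq_norm]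
  have hval : dist (lN p.toReal ‖u'‖ τ) (lN p.toReal ‖u‖ τ) < κ / 4 := hθ' (by
    rw [Real.dist_eq]
    exact (abs_norm_sub_norm_le _ _).trans_lt (hu.trans_le (min_le_left _ _)))
  filter_upwards [Metric.tendsto_nhds.1 h1 (κ / 4) (by positivity),
    (tendsto_zero_iff_norm_tendsto_zero.1 hP).eventually
      (gt_mem_nhds (show (0 : ℝ) < κ / 4 by positivity))] with n hn hPn
  have h2 : dist ‖u + x n‖ ‖u' + (x n - P n)‖ ≤ κ / 4 + κ / 4 := by
    rw [Real.dist_eq]
    refine (abs_norm_sub_norm_le _ _).trans ?_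
    rw [show u + x n - (u' + (x n - P n)) = P n - (u' - u) by abel]
    exact (norm_sub_le _ _).trans (add_le_add hPn.le (hu.le.trans (min_le_right _ _)))
  have h3 := dist_triangle4 ‖u + x n‖ ‖u' + (x n - P n)‖ (lN p.toReal ‖u'‖ τ) (lN p.toReal ‖u‖ τ)
  linarith

omit [Fact (1 ≤ p)] in
theorem toReal_one_lt (hp1 : 1 < p) (hp : p ≠ ⊤) : 1 < p.toReal := by
  rw [← ENNReal.toReal_one]; exact (ENNReal.toReal_lt_toReal ENNReal.one_ne_top hp).2 hp1

theorem wTendsto_zero_of_coord (hp1 : 1 < p) (hp : p ≠ ⊤) {x : ℕ → lp E p} {C : ℝ}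
    (hC : ∀ n, ‖x n‖ ≤ C) (hx : ∀ i, Tendsto (fun n => x n i) atTop (𝓝 0)) : WTendsto x 0 := by
  intro l
  rw [map_zero]
  by_contra hne
  obtain ⟨ε, hε, hfreq⟩ : ∃ ε > 0, ∃ᶠ n in atTop, ε ≤ |l (x n)| := by
    simpa [Metric.tendsto_nhds, not_eventually, not_forall, frequently_atTop] using hne
  obtain ⟨k, hk, hbad⟩ := extraction_of_frequently_atTop hfreq
  set q := p.toReal with hq
  have hq1 : 1 < q := toReal_one_lt hp1 hp
  have hq0 : 0 < q := one_pos.trans hq1
  let c : ℕ → ℝ := fun n => if 0 ≤ l (x n) then 1 else -1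
  have hc : ∀ n, |c n| = 1 := fun n => by simp only [c]; split_ifs <;> simp
  have hcl : ∀ n, c n * l (x n) = |l (x n)| := fun n => by
    simp only [c]; split_ifs with h
    · rw [one_mul, abs_of_nonneg h]
    · rw [neg_one_mul, abs_of_neg (not_le.1 h)]
  have hC0 : 0 ≤ C := (norm_nonneg _).trans (hC 0)
  obtain ⟨τ, k1, hk1, hτ⟩ := exists_tendsto_subseq (a := fun n => ‖x (k n)‖) (C := C)
    fun n => by rw [abs_norm]; exact hC _
  let j : ℕ → ℕ := fun n => k (k1 n)
  have hj : Tendsto j atTop atTop := (hk.comp hk1).tendsto_atTop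
  have hyc : ∀ i, Tendsto (fun n => (c (j n) • x (j n)) i) atTop (𝓝 0) := fun i => by
    simp only [lp.coeFn_smul, Pi.smul_apply]
    refine squeeze_zero_norm (fun n => le_of_eq ?_)
      (by simpa using ((hx i).comp hj).norm)
    simp [norm_smul, hc]
  have hyτ : Tendsto (fun n => ‖c (j n) • x (j n)‖) atTop (𝓝 τ) := by
    simpa [norm_smul, hc, j, Function.comp_def] using hτ
  have hτC : τ ≤ C := le_of_tendsto' hτ fun n => hC _
  have hτ0 : 0 ≤ τ := ge_of_tendsto' hτ fun n => norm_nonneg _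
  have hind : ∀ J : ℕ, ∃ v : lp E p, ‖v‖ ^ q ≤ J * (C ^ q + 1) ∧ J * ε ≤ l v := by
    intro J
    induction J with
    | zero => exact ⟨0, by simp [Real.zero_rpow hq0.ne'], by simp⟩
    | succ J ih =>
      obtain ⟨v, hv, hlv⟩ := ih
      have h := ((tendsto_norm_add_coord hp hq0 v hyc hyτ).rpow_const (p := q) (Or.inr hq0.le))
      rw [lN_rpow hq0.ne' (norm_nonneg v) hτ0] at h
      have hτq : τ ^ q ≤ C ^ q := Real.rpow_le_rpow hτ0 hτC hq0.le
      obtain ⟨n, hn⟩ := (h.eventually (gt_mem_nhds (show ‖v‖ ^ q + τ ^ q <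
        ‖v‖ ^ q + (C ^ q + 1) by linarith))).exists
      refine ⟨v + c (j n) • x (j n), by push_cast; linarith, ?_⟩
      rw [map_add, map_smul, smul_eq_mul, hcl]
      have := hbad (k1 n)
      push_cast
      linarith
  set B := C ^ q + 1
  have hB : 0 < B := by positivity
  have hlim : Tendsto (fun J : ℕ => (J : ℝ) ^ (1 - q⁻¹)) atTop atTop :=
    (tendsto_rpow_atTop (sub_pos.2 (inv_lt_one_of_one_lt₀ hq1))).comp tendsto_natCast_atTop_atTop
  obtain ⟨J, hJ, hJ1⟩ := ((hlim.eventually (eventually_gt_atTop (‖l‖ * B ^ q⁻¹ / ε))).and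
    (eventually_ge_atTop 1)).exists
  obtain ⟨v, hv, hlv⟩ := hind J
  have hJ0 : (0 : ℝ) < J := by exact_mod_cast hJ1
  have hvn : ‖v‖ ≤ (J : ℝ) ^ q⁻¹ * B ^ q⁻¹ := by
    rw [← Real.mul_rpow hJ0.le hB.le, ← Real.rpow_rpow_inv (norm_nonneg v) hq0.ne']
    exact Real.rpow_le_rpow (Real.rpow_nonneg (norm_nonneg v) q) hv (inv_nonneg.2 hq0.le)
  have h1 : (J : ℝ) * ε ≤ ‖l‖ * ((J : ℝ) ^ q⁻¹ * B ^ q⁻¹) :=
    hlv.trans ((le_abs_self _).trans ((l.le_opNorm v).trans
      (mul_le_mul_of_nonneg_left hvn (norm_nonneg l))))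
  rw [Real.rpow_sub hJ0, Real.rpow_one, div_lt_div_iff₀ hε (Real.rpow_pos_of_pos hJ0 _)] at hJ
  nlinarith

variable [∀ i, FiniteDimensional ℝ (E i)]

theorem tendsto_coord_of_wTendsto {x : ℕ → lp E p} (h : WTendsto x 0) (i : ι) :
    Tendsto (fun n => x n i) atTop (𝓝 0) := by
  let e : E i ≃L[ℝ] (Fin (Module.finrank ℝ (E i)) → ℝ) :=
    ContinuousLinearEquiv.ofFinrankEq (by simp)
  have h1 : Tendsto (fun n => e (x n i)) atTop (𝓝 0) := tendsto_pi_nhds.2 fun j => by
    simpa [lp.evalCLM, Function.comp_def] using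
      h ((ContinuousLinearMap.proj (R := ℝ) (φ := fun _ => ℝ) j).comp ((e : E i →L[ℝ] _).comp (lp.evalCLM ℝ E p i)))
  simpa [Function.comp_def] using (e.symm.continuous.tendsto 0).comp h1

theorem asymp_lp (hp : p ≠ ⊤) (hp0 : 0 < p.toReal) : Asymp (lp E p) p.toReal :=
  fun u _ _ hx hτ => tendsto_norm_add_coord hp hp0 u (tendsto_coord_of_wTendsto hx) hτ

theorem wCompact_lp (hp1 : 1 < p) (hp : p ≠ ⊤) : WCompact (lp E p) := by
  classical
  have hq0 : 0 < p.toReal := one_pos.trans (toReal_one_lt hp1 hp)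
  rintro x ⟨C, hC⟩
  set S : Set ι := ⋃ n, {i | x n i ≠ 0} with hS
  have hSc : S.Countable := countable_iUnion fun n => by
    refine (lp.hasSum_norm hq0 (x n)).summable.countable_support.mono fun i hi => ?_
    exact (Real.rpow_pos_of_pos (norm_pos_iff.2 hi) _).ne'
  have : Countable S := hSc.to_subtype
  have hbox : IsCompact (Set.pi univ fun i : S => closedBall (0 : E i) C) :=
    isCompact_univ_pi fun i => isCompact_closedBall _ _
  obtain ⟨a, -, k, hk, ha⟩ := hbox.tendsto_subseq (x := fun n (i : S) => x n i) fun n i _ => by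
    have hp' : p ≠ 0 := (zero_lt_one.trans hp1).ne'
    simpa using (lp.norm_apply_le_norm hp' (x n) i).trans (hC n)
  let b : ∀ i, E i := fun i => if h : i ∈ S then a ⟨i, h⟩ else 0
  have hb : ∀ i, Tendsto (fun n => x (k n) i) atTop (𝓝 (b i)) := fun i => by
    by_cases h : i ∈ S
    · simpa [b, h, Function.comp_def] using (tendsto_pi_nhds.1 ha) ⟨i, h⟩
    · have : ∀ n, x n i = 0 := fun n => by
        by_contra h0; exact h (mem_iUnion.2 ⟨n, h0⟩)
      simp [b, h, this]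
  have hmem : Memℓp b p := lp.memℓp_of_tendsto (F := fun n => x (k n))
    (isBounded_iff_forall_norm_le.2 ⟨C, by rintro _ ⟨n, rfl⟩; exact hC _⟩)
    (tendsto_pi_nhds.2 hb)
  refine ⟨⟨b, hmem⟩, k, hk, ?_⟩
  have h0 : WTendsto (fun n => x (k n) - (⟨b, hmem⟩ : lp E p)) 0 :=
    wTendsto_zero_of_coord hp1 hp (C := C + ‖(⟨b, hmem⟩ : lp E p)‖)
      (fun n => (norm_sub_le _ _).trans (by linarith [hC (k n)])) fun i => by
        have := (hb i).sub_const (b i)
        rw [sub_self] at this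
        exact this
  simpa [Function.comp_def] using h0.add (wTendsto_const (⟨b, hmem⟩ : lp E p))

end Vale.Agent.P084.MP
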