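import Vale.Agent.P084.MP.Target
import Vale.Agent.P084.FD.Ball

/-! Weakly compact, asymptotically p-additive spaces have the Mazur-Ulam property. -/

namespace Vale.Agent.P084.MP

open Filter Topology Metric Set
open Vale.Agent.P084.FD

variable {X Y : Type*} [NormedAddCommGroup X] [NormedSpace ℝ X]
  [NormedAddCommGroup Y] [NormedSpace ℝ Y]

theorem exists_unit_weaklyNull (hX : WCompact X) (hinf : ¬ FiniteDimensional ℝ X) :
    ∃ ξ : ℕ → X, (∀ n, ‖ξ n‖ = 1) ∧ WTendsto ξ 0 := by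
  obtain ⟨R, f, -, hfR, hfs⟩ := exists_seq_norm_le_one_le_norm_sub (𝕜 := ℝ) hinf
  obtain ⟨z, k, hk, hz⟩ := hX f ⟨R, hfR⟩
  let g : ℕ → X := fun n => f (k (n + 1)) - f (k n)
  have hg0 : WTendsto g 0 := by simpa [g] using (hz.comp (tendsto_add_atTop_nat 1)).sub hz
  have hg1 : ∀ n, 1 ≤ ‖g n‖ := fun n =>
    hfs (hk.injective.ne (show n + 1 ≠ n by omega))
  refine ⟨fun n => ‖g n‖⁻¹ • g n, fun n => ?_, hg0.smul (C := 1) fun n => ?_⟩
  · rw [norm_smul, norm_inv, norm_norm, inv_mul_cancel₀ (one_pos.trans_le (hg1 n)).ne']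
  · rw [abs_inv, abs_norm]; exact inv_le_one_of_one_le₀ (hg1 n)

/-- Weak limits of unit vectors and of their images. -/
def Rel (I : SIso X Y) (z : X) (w : Y) : Prop :=
  ∃ x : ℕ → X, (∀ n, ‖x n‖ = 1) ∧ WTendsto x z ∧ WTendsto (fun n => I.T (x n)) w

theorem Rel.symm {I : SIso X Y} {z : X} {w : Y} (h : Rel I z w) : Rel I.symm w z := by
  obtain ⟨x, hx, hz, hw⟩ := h
  refine ⟨fun n => I.T (x n), fun n => (I.norm_T _).trans (hx n), hw, ?_⟩
  show WTendsto (fun n => I.S (I.T (x n))) z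
  simpa [I.left_inv] using hz

theorem rel_of_unit (I : SIso X Y) {x : X} (hx : ‖x‖ = 1) : Rel I x (I.T x) :=
  ⟨fun _ => x, fun _ => hx, wTendsto_const x, wTendsto_const _⟩

theorem exists_rel (hX : WCompact X) (hY : WCompact Y) (hinf : ¬ FiniteDimensional ℝ X)
    (I : SIso X Y) {z : X} (hz : ‖z‖ ≤ 1) : ∃ w, Rel I z w := by
  obtain ⟨ξ, hξ, hξ0⟩ := exists_unit_weaklyNull hX hinf
  have hroot : ∀ n, ∃ t ∈ Icc (0 : ℝ) 2, ‖z + t • ξ n‖ = 1 := fun n => by
    have hc : Continuous fun t : ℝ => ‖z + t • ξ n‖ := by fun_prop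
    refine intermediate_value_Icc (by norm_num) hc.continuousOn ⟨by simpa using hz, ?_⟩
    have h1 : ‖(2 : ℝ) • ξ n‖ = 2 := by
      rw [norm_smul, hξ, mul_one, Real.norm_of_nonneg two_pos.le]
    have := norm_sub_le (z + (2 : ℝ) • ξ n) z
    rw [add_sub_cancel_left, h1] at this
    linarith
  choose t ht ht1 using hroot
  have hx : WTendsto (fun n => z + t n • ξ n) z := by
    simpa using (wTendsto_const z).add
      (hξ0.smul (C := 2) fun n => abs_le.2 ⟨by linarith [(ht n).1], (ht n).2⟩)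
  obtain ⟨w, k, hk, hw⟩ := hY (fun n => I.T (z + t n • ξ n))
    ⟨1, fun n => ((I.norm_T _).trans (ht1 n)).le⟩
  exact ⟨w, _, fun n => ht1 (k n), hx.comp hk.tendsto_atTop, hw⟩

variable [CompleteSpace Y] {p : ℝ}

theorem Rel.norm_eq (hp : 0 < p) (hX : WCompact X) (hA : Asymp X p) (hB : Asymp Y p)
    {I : SIso X Y} {z : X} {w : Y} (h : Rel I z w) : ‖z‖ ≤ 1 ∧ ‖z‖ = ‖w‖ := by
  obtain ⟨x, hx, hz, hw⟩ := h
  obtain ⟨hz1, -⟩ := tendsto_tail hp hA hx hz
  obtain ⟨hw1, hσ⟩ := tendsto_tail hp hB (fun n => (I.norm_T _).trans (hx n)) hw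
  refine ⟨hz1, ?_⟩
  have h2 := congrArg (fun c => c ^ p) (tail_eq hp hX hA I hx hz hw hσ)
  simp only [(tl_facts hp (norm_nonneg w) hw1).2.2, (tl_facts hp (norm_nonneg z) hz1).2.2] at h2
  exact Real.rpow_left_injOn hp.ne' (norm_nonneg z) (norm_nonneg w)
    (show ‖z‖ ^ p = ‖w‖ ^ p by linarith)

theorem Rel.dist_eq (hp : 0 < p) (hX : WCompact X) (hA : Asymp X p) (hB : Asymp Y p)
    {I : SIso X Y} {z z' : X} {w w' : Y} (h : Rel I z w) (h' : Rel I z' w') :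
    ‖z - z'‖ = ‖w - w'‖ := by
  obtain ⟨-, hn⟩ := h.norm_eq hp hX hA hB
  obtain ⟨-, hn'⟩ := h'.norm_eq hp hX hA hB
  obtain ⟨x, hx, hz, hw⟩ := h
  obtain ⟨x', hx', hz', hw'⟩ := h'
  have hIx : ∀ n, ‖I.T (x n)‖ = 1 := fun n => (I.norm_T _).trans (hx n)
  have hIx' : ∀ n, ‖I.T (x' n)‖ = 1 := fun n => (I.norm_T _).trans (hx' n)
  obtain ⟨hz1, hτ⟩ := tendsto_tail hp hA hx hz
  obtain ⟨hz1', hτ'⟩ := tendsto_tail hp hA hx' hz'
  obtain ⟨-, hσ⟩ := tendsto_tail hp hB hIx hw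
  obtain ⟨-, hσ'⟩ := tendsto_tail hp hB hIx' hw'
  rw [← hn] at hσ
  rw [← hn'] at hσ'
  set τ := tl p ‖z‖
  set τ' := tl p ‖z'‖
  have inner : ∀ n, lN p ‖x n - z'‖ τ' = lN p ‖I.T (x n) - w'‖ τ' := fun n => by
    refine tendsto_nhds_unique
      (hA (x n - z') (fun m => -(x' m - z')) τ' (by simpa using hz'.sub_self.neg)
        (by simpa only [norm_neg] using hτ'))
      ((hB (I.T (x n) - w') (fun m => -(I.T (x' m) - w')) τ' (by simpa using hw'.sub_self.neg)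
        (by simpa only [norm_neg] using hσ')).congr fun m => ?_)
    rw [show I.T (x n) - w' + -(I.T (x' m) - w') = I.T (x n) - I.T (x' m) by abel,
      show x n - z' + -(x' m - z') = x n - x' m by abel,
      I.dist_T _ _ ((hx n).trans (hx' m).symm)]
  have oX : Tendsto (fun n => lN p ‖x n - z'‖ τ') atTop (𝓝 (lN p (lN p ‖z - z'‖ τ) τ')) := by
    refine tendsto_lN hp ((hA (z - z') _ τ hz.sub_self hτ).congr fun n => ?_) tendsto_const_nhds
    congr 1; abel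
  have oY : Tendsto (fun n => lN p ‖I.T (x n) - w'‖ τ') atTop
      (𝓝 (lN p (lN p ‖w - w'‖ τ) τ')) := by
    refine tendsto_lN hp ((hB (w - w') _ τ hw.sub_self hσ).congr fun n => ?_) tendsto_const_nhds
    congr 1; abel
  have key := congrArg (fun c => c ^ p) (tendsto_nhds_unique (oX.congr inner) oY)
  have ht : 0 ≤ τ := (tl_facts hp (norm_nonneg z) hz1).1
  have ht' : 0 ≤ τ' := (tl_facts hp (norm_nonneg z') hz1').1
  simp only [lN_rpow hp.ne' (lN_nonneg (norm_nonneg (z - z')) ht) ht',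
    lN_rpow hp.ne' (lN_nonneg (norm_nonneg (w - w')) ht) ht',
    lN_rpow hp.ne' (norm_nonneg (z - z')) ht, lN_rpow hp.ne' (norm_nonneg (w - w')) ht] at key
  exact Real.rpow_left_injOn hp.ne' (norm_nonneg _) (norm_nonneg _)
    (show ‖z - z'‖ ^ p = ‖w - w'‖ ^ p by linarith)

omit [CompleteSpace Y] in
/-- The infinite-dimensional main theorem. -/
theorem exists_linear [CompleteSpace X] (hp : 1 < p) (hX : WCompact X) (hA : Asymp X p)
    (hinf : ¬ FiniteDimensional ℝ X) (I : SIso X Y) :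
    ∃ T : X ≃ₗᵢ[ℝ] Y, ∀ x, ‖x‖ = 1 → T x = I.T x := by
  have hp0 : 0 < p := one_pos.trans hp
  have : CompleteSpace Y := completeSpace_target I
  have hinfY : ¬ FiniteDimensional ℝ Y := fun h => hinf I.symm.finiteDimensional
  obtain ⟨ξ, hξ, -⟩ := exists_unit_weaklyNull hX hinf
  have hY : WCompact Y := wCompact_target hX I (y0 := I.T (ξ 0)) (by rw [I.norm_T, hξ])
  have hB : Asymp Y p := asymp_target hp hX hA I
  choose F hF using fun z : {z : X // ‖z‖ ≤ 1} => exists_rel hX hY hinf I z.2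
  choose G hG using fun w : {w : Y // ‖w‖ ≤ 1} => exists_rel hY hX hinfY I.symm w.2
  have hG' : ∀ w, Rel I (G w) w.1 := fun w => (hG w).symm
  have huniq : ∀ {z z' w}, Rel I z w → Rel I z' w → z = z' := fun {z z' w} h h' =>
    sub_eq_zero.1 (norm_eq_zero.1 (by rw [h.dist_eq hp0 hX hA hB h', sub_self, norm_zero]))
  have huniq' : ∀ {z w w'}, Rel I z w → Rel I z w' → w = w' := fun {z w w'} h h' =>
    sub_eq_zero.1 (norm_eq_zero.1 (by rw [← h.dist_eq hp0 hX hA hB h', sub_self, norm_zero]))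
  classical
  let J : BallIso X Y :=
    { φ := fun z => if h : ‖z‖ ≤ 1 then F ⟨z, h⟩ else 0
      ψ := fun w => if h : ‖w‖ ≤ 1 then G ⟨w, h⟩ else 0
      mem := fun z hz => by rw [dif_pos hz]; exact ((hF _).norm_eq hp0 hX hA hB).2.symm
      mem' := fun w hw => by rw [dif_pos hw]; exact ((hG' _).norm_eq hp0 hX hA hB).2
      dist_φ := fun a b ha hb => by
        rw [dif_pos ha, dif_pos hb]; exact ((hF _).dist_eq hp0 hX hA hB (hF _)).symm
      dist_ψ := fun a b ha hb => by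
        rw [dif_pos ha, dif_pos hb]; exact (hG' _).dist_eq hp0 hX hA hB (hG' _)
      left_inv := fun z hz => by
        have h1 : ‖F ⟨z, hz⟩‖ ≤ 1 := ((hF _).norm_eq hp0 hX hA hB).2.symm.trans_le hz
        simp only [dif_pos hz, dif_pos h1]
        exact huniq (hG' ⟨_, h1⟩) (hF ⟨z, hz⟩)
      right_inv := fun w hw => by
        have h1 : ‖G ⟨w, hw⟩‖ ≤ 1 := ((hG' _).norm_eq hp0 hX hA hB).2.trans_le hw
        simp only [dif_pos hw, dif_pos h1]
        exact huniq' (hF ⟨_, h1⟩) (hG' ⟨w, hw⟩) }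
  obtain ⟨T, hT⟩ := J.exists_linear
  refine ⟨T, fun x hx => (hT x hx.le).trans ?_⟩
  show dite _ _ _ = _
  rw [dif_pos hx.le]
  exact huniq' (hF ⟨x, hx.le⟩) (rel_of_unit I hx)

theorem tingley {X Y : Type*} [NormedAddCommGroup X] [NormedSpace ℝ X] [CompleteSpace X]
    [NormedAddCommGroup Y] [NormedSpace ℝ Y] {p : ℝ} (hp : 1 < p) (hX : WCompact X)
    (hA : Asymp X p) (hinf : ¬ FiniteDimensional ℝ X)
    (f : sphere (0 : X) 1 → sphere (0 : Y) 1) (hf : Isometry f) (hs : Function.Surjective f) :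
    ∃ T : X ≃ₗᵢ[ℝ] Y, ∀ x : sphere (0 : X) 1, T (x : X) = (f x : Y) := by
  obtain ⟨T, hT⟩ := exists_linear hp hX hA hinf (toSIso f hf hs)
  refine ⟨T, fun x => ?_⟩
  rw [hT x (norm_eq_of_mem_sphere x)]
  have h := hext_smul_sphere f x zero_le_one
  rw [one_smul, one_smul] at h
  exact h

end Vale.Agent.P084.MP
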