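import Vale.Agent.P084.MP.Speed

/-! Countably many properties, each almost everywhere on finite-dimensional translates, meet. -/

namespace Vale.Agent.P084.MP

open Filter Topology Metric Set MeasureTheory

/-- Uniform probability measure on the unit interval. -/
noncomputable def unitUnif : Measure ℝ := volume.restrict (Icc 0 1)

instance : IsProbabilityMeasure unitUnif := ⟨by simp [unitUnif]⟩

/-- Replace the first coordinates. -/
def repl (N : ℕ) (q : (ℕ → ℝ) × (Fin N → ℝ)) : ℕ → ℝ :=
  fun i => if h : i < N then q.2 ⟨i, h⟩ else q.1 i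

theorem measurable_repl (N : ℕ) : Measurable (repl N) := by
  refine measurable_pi_lambda _ fun i => ?_
  unfold repl
  split_ifs with h <;> fun_prop

theorem map_repl (N : ℕ) :
    ((Measure.infinitePi fun _ : ℕ => unitUnif).prod (Measure.pi fun _ : Fin N => unitUnif)).map
      (repl N) = Measure.infinitePi fun _ : ℕ => unitUnif := by
  refine Measure.eq_infinitePi _ fun s t ht => ?_
  classical
  have hbox : MeasurableSet (Set.pi ↑s t) := MeasurableSet.pi s.countable_toSet fun i _ => ht i
  rw [Measure.map_apply (measurable_repl N) hbox]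
  have hpre : repl N ⁻¹' Set.pi ↑s t =
      (Set.pi ↑(s.filter fun i => ¬ i < N) t) ×ˢ
        (Set.pi univ fun i : Fin N => if (i : ℕ) ∈ s then t i else univ) := by
    ext ⟨a, u⟩
    simp only [mem_preimage, Set.mem_pi, Finset.mem_coe, mem_prod, Finset.mem_filter, mem_univ,
      forall_const]
    constructor
    · intro h
      refine ⟨fun i hi => by simpa [repl, hi.2] using h i hi.1, fun i => ?_⟩
      split_ifs with hi
      · simpa [repl] using h i hi
      · trivial
    · rintro ⟨h1, h2⟩ i hi
      by_cases hiN : i < N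
      · simpa [repl, hiN, hi] using h2 ⟨i, hiN⟩
      · simpa [repl, hiN] using h1 i ⟨hi, hiN⟩
  rw [hpre, Measure.prod_prod, Measure.infinitePi_pi _ (fun i _ => ht i), Measure.pi_pi]
  have h2 : ∏ i : Fin N, unitUnif (if (i : ℕ) ∈ s then t i else univ) =
      ∏ i ∈ s.filter (fun i => i < N), unitUnif (t i) := by
    simp_rw [apply_ite unitUnif, measure_univ]
    rw [Fin.prod_univ_eq_prod_range (fun i => if i ∈ s then unitUnif (t i) else 1) N,
      ← Finset.prod_filter]
    refine Finset.prod_congr ?_ fun i _ => rfl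
    ext i; simp [and_comm]
  rw [h2, mul_comm, Finset.prod_filter_mul_prod_filter_not]

/-- Truncation to the unit interval. -/
def cl (t : ℝ) : ℝ := max 0 (min 1 t)

variable {W : Type*} [NormedAddCommGroup W] [NormedSpace ℝ W] [CompleteSpace W]
  [MeasurableSpace W] [BorelSpace W]

theorem exists_point {ι : Type*} [Countable ι] (d : ℕ → W) (hd : Summable fun i => ‖d i‖) (y0 : W)
    (A : ι → Set W) (hA : ∀ k, MeasurableSet (A k)) (N : ι → ℕ)
    (h : ∀ k b, ∀ᵐ u : Fin (N k) → ℝ,
      b + Fintype.linearCombination ℝ (fun i : Fin (N k) => d i) u ∈ A k) :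
    ∃ y, ‖y - y0‖ ≤ ∑' i, ‖d i‖ ∧ ∀ k, y ∈ A k := by
  let Y : (ℕ → ℝ) → W := fun t => y0 + ∑' i, cl (t i) • d i
  have hbound : ∀ (t : ℕ → ℝ) i, ‖cl (t i) • d i‖ ≤ ‖d i‖ := fun t i => by
    rw [norm_smul, Real.norm_eq_abs]
    refine mul_le_of_le_one_left (norm_nonneg _) (abs_le.2 ⟨?_, ?_⟩)
    · linarith [le_max_left (0 : ℝ) (min 1 (t i)), show cl (t i) = max 0 (min 1 (t i)) from rfl]
    · exact max_le zero_le_one (min_le_left _ _)
  have hYc : Continuous Y :=
    continuous_const.add (continuous_tsum (fun i => by unfold cl; fun_prop) hd fun i t => hbound t i)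
  have hae : ∀ k, ∀ᵐ t ∂(Measure.infinitePi fun _ : ℕ => unitUnif), Y t ∈ A k := by
    intro k
    have hm : MeasurableSet {t | Y t ∈ A k} := hYc.measurable (hA k)
    rw [← map_repl (N k), ae_map_iff (measurable_repl _).aemeasurable hm]
    refine (Measure.ae_prod_iff_ae_ae (p := fun q => Y (repl (N k) q) ∈ A k)
      ((measurable_repl _) hm)).2 ?_
    refine ae_of_all _ fun t => ?_
    set b := y0 + ∑' i, cl (t (i + N k)) • d (i + N k) with hb
    have hpi : (Measure.pi fun _ : Fin (N k) => unitUnif) =
        volume.restrict (univ.pi fun _ => Icc (0 : ℝ) 1) := by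
      rw [volume_pi, Measure.restrict_pi_pi]; rfl
    rw [hpi, ae_restrict_iff' (MeasurableSet.univ_pi fun _ => measurableSet_Icc)]
    filter_upwards [h k b] with u hu hbox
    have key : Y (repl (N k) (t, u)) =
        b + Fintype.linearCombination ℝ (fun i : Fin (N k) => d i) u := by
      have hs : Summable fun i => cl (repl (N k) (t, u) i) • d i :=
        Summable.of_norm_bounded hd (hbound _)
      simp only [Y, hb, Fintype.linearCombination_apply]
      rw [← hs.sum_add_tsum_nat_add (N k),
        ← Fin.sum_univ_eq_sum_range (fun i => cl (repl (N k) (t, u) i) • d i) (N k)]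
      have h1 : ∀ i : Fin (N k), cl (repl (N k) (t, u) i) = u i := fun i => by
        obtain ⟨h0, h1⟩ := hbox i (mem_univ i)
        simp [repl, cl, h0, h1]
      have h2 : ∀ i, repl (N k) (t, u) (i + N k) = t (i + N k) := fun i => by simp [repl]
      simp only [h1, h2]
      abel
    rw [key]; exact hu
  obtain ⟨t, ht⟩ := (ae_all_iff.2 hae).exists
  refine ⟨Y t, ?_, ht⟩
  simp only [Y, add_sub_cancel_left]
  exact tsum_of_norm_bounded hd.hasSum (hbound t)

end Vale.Agent.P084.MP
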