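import Vale.Agent.P084.MP.Basic

/-! The speed of a Lipschitz curve is read off by a countable norming family of functionals. -/

namespace Vale.Agent.P084.MP

open Filter Topology Metric Set MeasureTheory
open scoped NNReal

variable {X : Type*} [NormedAddCommGroup X] [NormedSpace ℝ X]

/-- A countable family of functionals of norm at most one, norming on a given set. -/
def Norming (ψ : ℕ → StrongDual ℝ X) (A : Set X) : Prop :=
  (∀ j, ‖ψ j‖ ≤ 1) ∧ ∀ z ∈ A, ∀ r, (∀ j, |ψ j z| ≤ r) → ‖z‖ ≤ r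

theorem exists_norming {A : Set X} (hA : TopologicalSpace.IsSeparable A) :
    ∃ ψ : ℕ → StrongDual ℝ X, Norming ψ A := by
  obtain ⟨c, hc, hAc⟩ := hA
  obtain ⟨a, ha⟩ := (hc.insert 0).exists_eq_range (insert_nonempty 0 c)
  choose ψ hψ hψa using fun j => exists_dual_vector'' ℝ (a j)
  refine ⟨ψ, hψ, fun z hz r hr => le_of_forall_gt_imp_ge_of_dense fun r' hr' => ?_⟩
  have hz' : z ∈ closure (range a) := by
    rw [← ha]; exact closure_mono (subset_insert 0 c) (hAc hz)
  obtain ⟨b, ⟨j, rfl⟩, hj⟩ := Metric.mem_closure_iff.1 hz' ((r' - r) / 2) (by linarith)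
  rw [dist_eq_norm] at hj
  have h1 : ‖a j‖ - ‖z - a j‖ ≤ ψ j z := by
    have h : |ψ j (z - a j)| ≤ ‖z - a j‖ :=
      ((ψ j).le_opNorm _).trans (mul_le_of_le_one_left (norm_nonneg _) (hψ j))
    have h0 : ψ j (a j) = ‖a j‖ := by simpa using hψa j
    rw [map_sub, h0] at h
    linarith [neg_abs_le (ψ j z - ‖a j‖)]
  have h2 : ψ j z ≤ r := (le_abs_self _).trans (hr j)
  have h3 := norm_sub_norm_le z (a j)
  linarith

theorem abs_apply_le {ψ : StrongDual ℝ X} (h : ‖ψ‖ ≤ 1) (z : X) : |ψ z| ≤ ‖z‖ :=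
  (ψ.le_opNorm z).trans (mul_le_of_le_one_left (norm_nonneg _) h)

theorem lipschitz_comp_apply {W : Type*} [PseudoMetricSpace W] {K : ℝ≥0} {S : W → X}
    (hS : LipschitzWith K S) {ψ : StrongDual ℝ X} (h : ‖ψ‖ ≤ 1) :
    LipschitzWith K (fun v => ψ (S v)) := LipschitzWith.of_dist_le_mul fun a b => by
  rw [Real.dist_eq, ← map_sub]
  refine (abs_apply_le h _).trans ?_
  rw [← dist_eq_norm]
  exact hS.dist_le_mul a b

theorem speed_line {γ : ℝ → X} {K : ℝ≥0} (hγ : LipschitzWith K γ) {ψ : ℕ → StrongDual ℝ X}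
    {A : Set X} (hψ : Norming ψ A) (hA : ∀ s t, γ s - γ t ∈ A) :
    ∀ᵐ σ : ℝ, ∀ ε > 0, ∀ᶠ s in 𝓝[>] (0 : ℝ),
      ‖γ (σ + s) - γ σ‖ ≤ ((⨆ j, |deriv (fun t => ψ j (γ t)) σ|) + ε) * s := by
  have hl : ∀ j, LipschitzWith K (fun t => ψ j (γ t)) := fun j => lipschitz_comp_apply hγ (hψ.1 j)
  have hb : ∀ j σ, |deriv (fun t => ψ j (γ t)) σ| ≤ K := fun j σ =>
    norm_deriv_le_of_lipschitz (hl j)
  set M : ℝ → ℝ := fun σ => ⨆ j, |deriv (fun t => ψ j (γ t)) σ| with hM
  have hMle : ∀ j σ, |deriv (fun t => ψ j (γ t)) σ| ≤ M σ := fun j σ =>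
    le_ciSup (f := fun i => |deriv (fun t => ψ i (γ t)) σ|)
      ⟨K, by rintro _ ⟨i, rfl⟩; exact hb i σ⟩ j
  have hM0 : ∀ σ, 0 ≤ M σ := fun σ => (abs_nonneg _).trans (hMle 0 σ)
  have hMK : ∀ σ, M σ ≤ K := fun σ => ciSup_le fun j => hb j σ
  have hMm : Measurable M :=
    Measurable.iSup fun j => continuous_abs.measurable.comp (measurable_deriv _)
  have hMi : LocallyIntegrable M volume :=
    (locallyIntegrable_const (K : ℝ)).mono hMm.aestronglyMeasurable
      (ae_of_all _ fun σ => by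
        rw [Real.norm_of_nonneg (hM0 σ), Real.norm_of_nonneg K.coe_nonneg]; exact hMK σ)
  have hMI : ∀ a b : ℝ, IntervalIntegrable M volume a b := fun a b =>
    intervalIntegrable_iff.2 ((hMi.integrableOn_isCompact isCompact_uIcc).mono_set
      uIoc_subset_uIcc)
  filter_upwards [_root_.LocallyIntegrable.ae_hasDerivAt_integral hMi] with σ hσ ε hε
  have hd := hasDerivAt_iff_tendsto_slope_zero.1 (hσ σ)
  have hd' := hd.mono_left (nhdsGT_le_nhdsNE 0)
  filter_upwards [hd'.eventually (gt_mem_nhds (show M σ < M σ + ε by linarith)),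
    self_mem_nhdsWithin] with s hs hs0
  rw [intervalIntegral.integral_same, sub_zero, smul_eq_mul, inv_mul_lt_iff₀ hs0] at hs
  refine hψ.2 _ (hA _ _) _ fun j => ?_
  rw [map_sub, ← ((hl j).lipschitzOnWith.absolutelyContinuousOnInterval
    (a := σ) (b := σ + s)).integral_deriv_eq_sub]
  have hle : σ ≤ σ + s := le_add_of_nonneg_right (le_of_lt hs0)
  calc |∫ t in σ..σ + s, deriv (fun t => ψ j (γ t)) t|
      ≤ ∫ t in σ..σ + s, M t := by
        rw [← Real.norm_eq_abs]
        exact intervalIntegral.norm_integral_le_of_norm_le hle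
          (ae_of_all _ fun t _ => hMle j t) (hMI _ _)
    _ ≤ (M σ + ε) * s := by rw [mul_comm]; exact hs.le

section Transfer

variable {W : Type*} [NormedAddCommGroup W] [NormedSpace ℝ W]
  [MeasurableSpace W] [BorelSpace W]

/-- Upper bound for the speed of `S` at a point in a direction, seen by functionals. -/
noncomputable def spd (ψ : ℕ → StrongDual ℝ X) (S : W → X) (y d : W) : ℝ :=
  ⨆ j, |lineDeriv ℝ (fun v => ψ j (S v)) y d|

/-- Points at which the speed bound holds with a given slack. -/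
def fastSet (ψ : ℕ → StrongDual ℝ X) (S : W → X) (d : W) (m : ℕ) : Set W :=
  {y | ∃ n : ℕ, ∀ s ∈ Ioo (0 : ℝ) (1 / (n + 1)),
    ‖S (y + s • d) - S y‖ ≤ (spd ψ S y d + 1 / (m + 1)) * s}

theorem measurable_spd {ψ : ℕ → StrongDual ℝ X} {S : W → X} (hS : Continuous S) (d : W) :
    Measurable (fun y => spd ψ S y d) :=
  Measurable.iSup fun j =>
    continuous_abs.measurable.comp (measurable_lineDeriv (v := d) ((ψ j).continuous.comp hS))

theorem measurableSet_fastSet {ψ : ℕ → StrongDual ℝ X} {S : W → X} (hS : Continuous S) (d : W)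
    (m : ℕ) : MeasurableSet (fastSet ψ S d m) := by
  have : fastSet ψ S d m = ⋃ n : ℕ, ⋂ (q : ℚ) (_ : (q : ℝ) ∈ Ioo (0 : ℝ) (1 / (n + 1))),
      {y | ‖S (y + (q : ℝ) • d) - S y‖ ≤ (spd ψ S y d + 1 / (m + 1)) * q} := by
    ext y
    simp only [fastSet, mem_ofPred_eq, mem_iUnion, mem_iInter]
    refine ⟨fun ⟨n, hn⟩ => ⟨n, fun q hq => hn q hq⟩, fun ⟨n, hn⟩ => ⟨n, fun s hs => ?_⟩⟩
    have hc : IsClosed {s : ℝ | ‖S (y + s • d) - S y‖ ≤ (spd ψ S y d + 1 / (m + 1)) * s} :=
      isClosed_le ((hS.comp (by fun_prop)).sub continuous_const).norm (by fun_prop)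
    refine hc.closure_subset_iff.2 ?_
      (Dense.open_subset_closure_inter (Rat.denseRange_cast (𝕜 := ℝ)) isOpen_Ioo hs)
    rintro _ ⟨hI, q, rfl⟩
    exact hn q hI
  rw [this]
  refine MeasurableSet.iUnion fun n => MeasurableSet.iInter fun q => MeasurableSet.iInter fun _ => ?_
  exact measurableSet_le
    ((hS.comp (continuous_id.add continuous_const)).sub hS).norm.measurable
    (((measurable_spd hS d).add_const _).mul_const _)

/-- Almost everywhere on every translate of a finite-dimensional piece the speed bound holds. -/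
theorem ae_fastSet {E : Type*} [NormedAddCommGroup E] [NormedSpace ℝ E] [FiniteDimensional ℝ E]
    [MeasurableSpace E] [BorelSpace E] (ν : Measure E) [ν.IsAddHaarMeasure]
    {ψ : ℕ → StrongDual ℝ X} {A : Set X} (hψ : Norming ψ A) {S : W → X} {K : ℝ≥0}
    (hS : LipschitzWith K S) (hA : ∀ a b, S a - S b ∈ A) (L : E →L[ℝ] W) (b : W) (e : E)
    (m : ℕ) : ∀ᵐ u ∂ν, b + L u ∈ fastSet ψ S (L e) m := by
  have hmeas : MeasurableSet {u : E | b + L u ∈ fastSet ψ S (L e) m} :=
    (continuous_const.add L.continuous).measurable (measurableSet_fastSet hS.continuous _ m)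
  refine ae_mem_of_ae_add_linearMap_mem (LinearMap.toSpanSingleton ℝ E e) volume ν hmeas
    fun u => ?_
  set c := b + L u with hc
  set d := L e with hd
  have hlip : LipschitzWith (K * ‖d‖₊) (fun t : ℝ => S (c + t • d)) := by
    refine hS.comp (LipschitzWith.of_dist_le_mul fun s t => ?_)
    rw [dist_add_left, dist_eq_norm, dist_eq_norm, ← sub_smul, norm_smul, coe_nnnorm, mul_comm]
  filter_upwards [speed_line hlip hψ (fun s t => hA _ _)] with σ hσ
  have hmem : b + L (u + (LinearMap.toSpanSingleton ℝ E e) σ) = c + σ • d := by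
    simp only [LinearMap.toSpanSingleton_apply, map_add, map_smul, hc, hd]; abel
  show b + L (u + (LinearMap.toSpanSingleton ℝ E e) σ) ∈ fastSet ψ S d m
  rw [hmem]
  have hd' : ∀ j, lineDeriv ℝ (fun v => ψ j (S v)) (c + σ • d) d =
      deriv (fun t => ψ j (S (c + t • d))) σ := fun j => by
    have h := deriv_comp_const_add (fun t => ψ j (S (c + t • d))) σ (0 : ℝ)
    rw [add_zero] at h
    rw [lineDeriv, ← h]
    congr 1
    ext t
    rw [add_smul, add_assoc]
  obtain ⟨δ, hδ, hsub⟩ := mem_nhdsGT_iff_exists_Ioo_subset.1 (hσ (1 / (m + 1)) (by positivity))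
  obtain ⟨n, hn⟩ := exists_nat_one_div_lt (show (0 : ℝ) < δ from hδ)
  refine ⟨n, fun s hs => ?_⟩
  have hsd : c + σ • d + s • d = c + (σ + s) • d := by rw [add_smul, add_assoc]
  simp only [spd, hd', hsd]
  exact hsub ⟨hs.1, hs.2.trans hn⟩

end Transfer

end Vale.Agent.P084.MP
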