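import Vale.Agent.P084.MP.Good
import Vale.Agent.P084.FD.Iso

/-! The hypotheses pass to the target space of a sphere isometry. -/

namespace Vale.Agent.P084.MP

open Filter Topology Metric Set
open Vale.Agent.P084.FD

variable {X Y : Type*} [NormedAddCommGroup X] [NormedSpace ℝ X]
  [NormedAddCommGroup Y] [NormedSpace ℝ Y]

theorem lipschitz_S (I : SIso X Y) : LipschitzWith 3 I.S := I.symm.lipschitz

theorem dist_S (I : SIso X Y) {a b : Y} (h : ‖a‖ = ‖b‖) : ‖I.S a - I.S b‖ = ‖a - b‖ :=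
  I.symm.dist_T a b h

theorem completeSpace_target [CompleteSpace X] (I : SIso X Y) : CompleteSpace Y := by
  refine Metric.complete_of_cauchySeq_tendsto fun u hu => ?_
  obtain ⟨x, hx⟩ := cauchySeq_tendsto_of_complete ((lipschitz_S I).uniformContinuous.comp_cauchySeq hu)
  refine ⟨I.T x, ?_⟩
  have := (I.continuous.tendsto x).comp hx
  simpa [Function.comp_def, I.right_inv] using this

/-- Tangent data on a separable closed subspace containing prescribed vectors. -/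
structure Tangent (X Y : Type*) [NormedAddCommGroup X] [NormedSpace ℝ X]
    [NormedAddCommGroup Y] [NormedSpace ℝ Y] where
  M : Submodule ℝ Y
  closed : IsClosed (M : Set Y)
  φ : StrongDual ℝ Y
  e : M
  D : M →L[ℝ] X
  norm_e : ‖(e : Y)‖ = 1
  φ_e : φ e = 1
  φ_le : ∀ h : M, |φ h| ≤ ‖(h : Y)‖
  iso : ∀ h : M, φ h = 0 → ‖D h‖ = ‖(h : Y)‖

theorem exists_tangent_sub [CompleteSpace Y] (hX : WCompact X) (I : SIso X Y) {C : Set Y}
    (hC : C.Countable) {y0 : Y} (hy0C : y0 ∈ C) (hy0 : ‖y0‖ = 1) {r : ℝ} (hr : 0 < r)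
    (hr1 : r ≤ 1 / 2) : ∃ Tg : Tangent X Y, C ⊆ Tg.M ∧ 1 - 2 * r ≤ Tg.φ y0 := by
  set M := (Submodule.span ℝ C).topologicalClosure with hM
  have hMc : IsClosed (M : Set Y) := Submodule.isClosed_topologicalClosure _
  have hCM : C ⊆ M := Submodule.subset_span.trans (Submodule.le_topologicalClosure _)
  have : CompleteSpace M := hMc.completeSpace_coe
  have : TopologicalSpace.SeparableSpace M := by
    have : TopologicalSpace.IsSeparable (M : Set Y) := by
      rw [hM, Submodule.topologicalClosure_coe]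
      exact (hC.isSeparable.span).closure
    exact this.separableSpace
  obtain ⟨φ, e, D, he, hφe, hφ, hφy, hD⟩ := exists_tangent hX
    (S := fun v : M => I.S v) (((lipschitz_S I).comp (LipschitzWith.subtype_val (M : Set Y))).weaken (by simp))
    (fun a b h => dist_S I h) (y0 := ⟨y0, hCM hy0C⟩) hy0 hr hr1
  obtain ⟨g, hg, -⟩ := exists_extension_norm_eq M φ
  refine ⟨⟨M, hMc, g, e, D, he, by rw [hg]; exact hφe, fun h => by rw [hg]; exact hφ h,
    fun h hh => hD h (by rwa [hg] at hh)⟩, hCM, ?_⟩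
  show _ ≤ g y0
  exact hφy.trans_eq (hg ⟨y0, hCM hy0C⟩).symm

namespace Tangent

variable (Tg : Tangent X Y)

/-- Projection onto the kernel of the functional. -/
noncomputable def proj (h : Tg.M) : Tg.M := h - Tg.φ h • Tg.e

theorem φ_proj (h : Tg.M) : Tg.φ (Tg.proj h) = 0 := by
  simp [proj, Tg.φ_e]

theorem norm_proj_sub (h : Tg.M) : ‖(Tg.proj h : Y) - h‖ = |Tg.φ h| := by
  simp [proj, norm_smul, Tg.norm_e]

theorem norm_proj (h : Tg.M) : ‖Tg.D (Tg.proj h)‖ = ‖(Tg.proj h : Y)‖ :=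
  Tg.iso _ (Tg.φ_proj h)

theorem tendsto_norm_proj {η : ℕ → Tg.M} {τ : ℝ} (h0 : WTendsto (fun n => (η n : Y)) 0)
    (hτ : Tendsto (fun n => ‖(η n : Y)‖) atTop (𝓝 τ)) :
    Tendsto (fun n => ‖(Tg.proj (η n) : Y)‖) atTop (𝓝 τ) := by
  refine tendsto_of_tendsto_of_dist hτ (squeeze_zero (fun n => dist_nonneg) (fun n => ?_)
    (by simpa using (h0 Tg.φ).abs))
  rw [Real.dist_eq, abs_sub_comm]
  exact (abs_norm_sub_norm_le _ _).trans (Tg.norm_proj_sub _).le

theorem asymp {p : ℝ} (hA : Asymp X p) {h : Tg.M} (hh : Tg.φ h = 0) {η : ℕ → Tg.M} {τ : ℝ}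
    (h0 : WTendsto (fun n => (η n : Y)) 0)
    (hτ : Tendsto (fun n => ‖(η n : Y)‖) atTop (𝓝 τ)) :
    Tendsto (fun n => ‖(h : Y) + η n‖) atTop (𝓝 (lN p ‖(h : Y)‖ τ)) := by
  have hP : WTendsto (fun n => (Tg.proj (η n) : Y)) 0 := by
    have h1 : WTendsto (fun n => Tg.φ (η n) • (Tg.e : Y)) 0 := wTendsto_of_tendsto (by
      simpa using (h0 Tg.φ).smul_const (Tg.e : Y))
    simpa [proj] using h0.sub h1
  have hP' : WTendsto (fun n => Tg.D (Tg.proj (η n))) 0 := by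
    simpa using (wTendsto_subtype (z := (0 : Tg.M)) (by simpa using hP)).map Tg.D
  have key := hA (Tg.D h) _ τ hP' (by simpa [Tg.norm_proj] using Tg.tendsto_norm_proj h0 hτ)
  rw [Tg.iso h hh] at key
  refine tendsto_of_tendsto_of_dist key (squeeze_zero (fun n => dist_nonneg) (fun n => ?_)
    (by simpa using (h0 Tg.φ).abs))
  rw [Real.dist_eq, ← map_add, Tg.iso _ (by simp [hh, Tg.φ_proj]), Submodule.coe_add]
  exact (abs_norm_sub_norm_le _ _).trans (by rw [add_sub_add_left_eq_sub, Tg.norm_proj_sub])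

end Tangent

/-- The tail attached to a weak limit of unit vectors. -/
noncomputable def tl (p a : ℝ) : ℝ := (1 - a ^ p) ^ p⁻¹

theorem tendsto_tail {p : ℝ} (hp : 0 < p) (hA : Asymp X p) {x : ℕ → X} {z : X}
    (hx : ∀ n, ‖x n‖ = 1) (hz : WTendsto x z) :
    ‖z‖ ≤ 1 ∧ Tendsto (fun n => ‖x n - z‖) atTop (𝓝 (tl p ‖z‖)) := by
  have hz1 : ‖z‖ ≤ 1 := hz.norm_le (Eventually.of_forall fun n => (hx n).le)
  refine ⟨hz1, tendsto_of_subseq_tendsto fun ns hns => ?_⟩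
  obtain ⟨τ, k, hk, hτ⟩ := exists_tendsto_subseq (a := fun n => ‖x (ns n) - z‖) (C := 1 + ‖z‖)
    fun n => by rw [abs_norm]; exact (norm_sub_le _ _).trans (by rw [hx])
  refine ⟨k, ?_⟩
  have key := hA z _ τ ((hz.comp hns).comp hk.tendsto_atTop).sub_self hτ
  simp only [Function.comp_def, add_sub_cancel, hx] at key
  have h1 : lN p ‖z‖ τ = 1 := tendsto_nhds_unique key tendsto_const_nhds
  have hτ0 : 0 ≤ τ := ge_of_tendsto' hτ fun n => norm_nonneg _
  have h2 := lN_rpow hp.ne' (norm_nonneg z) hτ0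
  rw [h1, Real.one_rpow] at h2
  have : tl p ‖z‖ = τ := by
    rw [tl, show 1 - ‖z‖ ^ p = τ ^ p by linarith, Real.rpow_rpow_inv hτ0 hp.ne']
  rw [this]; exact hτ

theorem tl_facts {p a : ℝ} (hp : 0 < p) (ha : 0 ≤ a) (ha1 : a ≤ 1) :
    0 ≤ tl p a ∧ tl p a ≤ 1 ∧ tl p a ^ p = 1 - a ^ p := by
  have h1 : a ^ p ≤ 1 := Real.rpow_le_one ha ha1 hp.le
  have h0 := Real.rpow_nonneg ha p
  refine ⟨Real.rpow_nonneg (by linarith) _, Real.rpow_le_one (by linarith) (by linarith)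
    (inv_nonneg.2 hp.le), Real.rpow_inv_rpow (by linarith) hp.ne'⟩

variable [CompleteSpace Y]

theorem tail_diag {p : ℝ} (hp : 0 < p) (hX : WCompact X) (hA : Asymp X p) (I : SIso X Y)
    {y0 : Y} (hy0 : ‖y0‖ = 1) {η : ℕ → Y} {τ : ℝ} (h0 : WTendsto η 0)
    (hτ : Tendsto (fun n => ‖η n‖) atTop (𝓝 τ)) {L : ℕ → ℝ}
    (hL : ∀ n, Tendsto (fun m => ‖η n - η m‖) atTop (𝓝 (L n))) :
    Tendsto L atTop (𝓝 (lN p τ τ)) := by
  obtain ⟨Tg, hC, -⟩ := exists_tangent_sub hX I ((countable_range η).insert y0)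
    (mem_insert _ _) hy0 (show (0 : ℝ) < 1 / 2 by norm_num) le_rfl
  let η' : ℕ → Tg.M := fun n => ⟨η n, hC (mem_insert_of_mem _ ⟨n, rfl⟩)⟩
  refine tendsto_of_tendsto_of_dist
    (tendsto_lN hp (Tg.tendsto_norm_proj (η := η') h0 hτ) tendsto_const_nhds) ?_
  refine squeeze_zero (fun n => dist_nonneg) (fun n => ?_) (by simpa using (h0 Tg.φ).abs)
  have h1 := Tg.asymp hA (Tg.φ_proj (η' n)) (η := fun m => -η' m)
    (by simpa [η'] using h0.neg) (by simpa [η'] using hτ)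
  rw [Real.dist_eq]
  refine le_of_tendsto (h1.sub (hL n)).abs (Eventually.of_forall fun m => ?_)
  refine (abs_norm_sub_norm_le _ _).trans (le_of_eq ?_)
  rw [← Tg.norm_proj_sub (η' n)]
  congr 1
  simp only [η', Submodule.coe_neg]
  abel

theorem tail_eq {p : ℝ} (hp : 0 < p) (hX : WCompact X) (hA : Asymp X p) (I : SIso X Y)
    {x : ℕ → X} {z : X} {w : Y} {a : ℝ} (hx : ∀ n, ‖x n‖ = 1) (hz : WTendsto x z)
    (hw : WTendsto (fun n => I.T (x n)) w)
    (ha : Tendsto (fun n => ‖I.T (x n) - w‖) atTop (𝓝 a)) : a = tl p ‖z‖ := by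
  obtain ⟨-, hτ⟩ := tendsto_tail hp hA hx hz
  set τ := tl p ‖z‖ with hτd
  have hY : ∀ n, Tendsto (fun m => ‖(I.T (x n) - w) - (I.T (x m) - w)‖) atTop
      (𝓝 (lN p ‖x n - z‖ τ)) := fun n => by
    refine ((hA (x n - z) (fun m => -(x m - z)) τ (by simpa using hz.sub_self.neg)
      (by simpa only [norm_neg] using hτ))).congr fun m => ?_
    rw [sub_sub_sub_cancel_right, I.dist_T _ _ ((hx n).trans (hx m).symm)]
    congr 1; abel
  have h1 := tail_diag hp hX hA I (y0 := I.T (x 0)) (by rw [I.norm_T, hx]) hw.sub_self ha hY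
  have h2 : Tendsto (fun n => lN p ‖x n - z‖ τ) atTop (𝓝 (lN p τ τ)) :=
    tendsto_lN hp hτ tendsto_const_nhds
  have ha0 : 0 ≤ a := ge_of_tendsto' ha fun n => norm_nonneg _
  have hτ0 : 0 ≤ τ := ge_of_tendsto' hτ fun n => norm_nonneg _
  have h3 := congrArg (fun c => c ^ p) (tendsto_nhds_unique h1 h2)
  simp only [lN_rpow hp.ne' ha0 ha0, lN_rpow hp.ne' hτ0 hτ0] at h3
  exact Real.rpow_left_injOn hp.ne' ha0 hτ0 (show a ^ p = τ ^ p by linarith)

theorem smooth_bound {p : ℝ} (hp : 1 < p) (hX : WCompact X) (hA : Asymp X p) (I : SIso X Y)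
    {η : ℕ → Y} (hη : ∀ n, ‖η n‖ = 1) (h0 : WTendsto η 0) {w : Y} (hw : ‖w‖ ≤ 1) {δ : ℝ}
    (hδ : 0 < δ) : ∀ᶠ n in atTop, ‖η n + w‖ ≤ 1 + (2 * ‖w‖) ^ p + δ := by
  have hp0 : 0 < p := one_pos.trans hp
  by_contra hne
  obtain ⟨k, hk, hbad⟩ := extraction_of_frequently_atTop (not_eventually.1 hne)
  have hroot : ∀ n, ∃ t ∈ Icc (0 : ℝ) 2, ‖w + t • η (k n)‖ = 1 := fun n => by
    have hc : Continuous fun t : ℝ => ‖w + t • η (k n)‖ := by fun_prop
    refine intermediate_value_Icc (by norm_num) hc.continuousOn ⟨by simpa using hw, ?_⟩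
    have h1 : ‖(2 : ℝ) • η (k n)‖ = 2 := by
      rw [norm_smul, hη, mul_one, Real.norm_of_nonneg two_pos.le]
    have := norm_sub_le (w + (2 : ℝ) • η (k n)) w
    rw [add_sub_cancel_left, h1] at this
    linarith
  choose t ht ht1 using hroot
  have htw : ∀ n, |t n - 1| ≤ ‖w‖ := fun n => by
    have h1 := abs_norm_sub_norm_le (t n • η (k n)) (w + t n • η (k n))
    rw [ht1, norm_smul, hη, mul_one, Real.norm_of_nonneg (ht n).1, sub_add_cancel_right,
      norm_neg] at h1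
    exact h1
  obtain ⟨a, k1, hk1, ha⟩ := exists_tendsto_subseq (a := t) (C := 2)
    fun n => abs_le.2 ⟨by linarith [(ht n).1], (ht n).2⟩
  let x : ℕ → X := fun n => I.S (w + t (k1 n) • η (k (k1 n)))
  let x0 : ℕ → X := fun n => I.S (η (k (k1 n)))
  have hx : ∀ n, ‖x n‖ = 1 := fun n => by rw [I.norm_S, ht1]
  have hx0 : ∀ n, ‖x0 n‖ = 1 := fun n => by rw [I.norm_S, hη]
  obtain ⟨z, k2, hk2, hz⟩ := hX x ⟨1, fun n => (hx n).le⟩
  obtain ⟨z0, k3, hk3, hz0⟩ := hX (x0 ∘ k2) ⟨1, fun n => (hx0 _).le⟩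
  let j : ℕ → ℕ := fun n => k2 (k3 n)
  have hj : Tendsto j atTop atTop := (hk2.comp hk3).tendsto_atTop
  have hη0 : WTendsto (fun n => η (k (k1 (j n)))) 0 :=
    h0.comp (hk.tendsto_atTop.comp (hk1.tendsto_atTop.comp hj))
  have haj : Tendsto (fun n => t (k1 (j n))) atTop (𝓝 a) := ha.comp hj
  have ha0 : 0 ≤ a := ge_of_tendsto' haj fun n => (ht _).1
  have hzj : WTendsto (fun n => x (j n)) z := hz.comp hk3.tendsto_atTop
  have hxx : ∀ n, I.T (x (j n)) = w + t (k1 (j n)) • η (k (k1 (j n))) := fun n => I.right_inv _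
  have htη : WTendsto (fun n => t (k1 (j n)) • η (k (k1 (j n)))) 0 :=
    hη0.smul (C := 2) fun n => abs_le.2 ⟨by linarith [(ht (k1 (j n))).1], (ht _).2⟩
  have haτ : a = tl p ‖z‖ := tail_eq hp0 hX hA I (w := w) (fun n => hx (j n)) hzj
    (by simpa [hxx] using (wTendsto_const w).add htη)
    (by simpa [hxx, norm_smul, hη, abs_of_nonneg (ht _).1] using haj)
  have h1τ : (1 : ℝ) = tl p ‖z0‖ := tail_eq hp0 hX hA I (x := fun n => x0 (j n)) (w := 0)
    (fun n => hx0 _) hz0 (by simpa [x0, I.right_inv] using hη0)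
    (by simp [x0, I.right_inv, hη])
  have hz0' : z0 = 0 := by
    have h1 := (tl_facts hp0 (norm_nonneg z0) (tendsto_tail hp0 hA (fun n => hx0 _) hz0).1).2.2
    rw [← h1τ, Real.one_rpow] at h1
    exact norm_eq_zero.1 ((Real.rpow_eq_zero (norm_nonneg z0) hp0.ne').1 (by linarith))
  have hzw : ‖z‖ ≤ 2 * ‖w‖ := by
    have := (hzj.sub (x' := fun n => x0 (j n)) hz0).norm_le (C := 2 * ‖w‖)
      (Eventually.of_forall fun n => by
        rw [dist_S I (by rw [ht1, hη]), show w + t (k1 (j n)) • η (k (k1 (j n))) - η (k (k1 (j n)))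
          = w + (t (k1 (j n)) - 1) • η (k (k1 (j n))) by rw [sub_smul, one_smul]; abel]
        refine (norm_add_le _ _).trans ?_
        rw [norm_smul, hη, mul_one, Real.norm_eq_abs]
        linarith [htw (k1 (j n))])
    rwa [hz0', sub_zero] at this
  obtain ⟨hτ0, hτ1, hτp⟩ := tl_facts hp0 (norm_nonneg z) (tendsto_tail hp0 hA (fun n => hx _) hzj).1
  rw [← haτ] at hτ0 hτ1 hτp
  have h1a : 1 - a ≤ (2 * ‖w‖) ^ p := by
    have h2 : a ^ p ≤ a := Real.rpow_le_self_of_le_one hτ0 hτ1 hp.le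
    have h3 := Real.rpow_le_rpow (norm_nonneg z) hzw hp0.le
    linarith
  obtain ⟨n, hn⟩ := (haj.eventually (lt_mem_nhds (show a - δ / 2 < a by linarith))).and
    (haj.eventually (gt_mem_nhds (show a < a + δ / 2 by linarith))) |>.exists
  refine hbad (k1 (j n)) ?_
  have hdec : η (k (k1 (j n))) + w = (w + t (k1 (j n)) • η (k (k1 (j n)))) +
      (1 - t (k1 (j n))) • η (k (k1 (j n))) := by rw [sub_smul, one_smul]; abel
  rw [hdec]
  refine (norm_add_le _ _).trans ?_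
  rw [ht1, norm_smul, hη, mul_one, Real.norm_eq_abs]
  have := Real.rpow_nonneg (mul_nonneg two_pos.le (norm_nonneg w)) p
  have : |1 - t (k1 (j n))| ≤ (2 * ‖w‖) ^ p + δ :=
    abs_le.2 ⟨by linarith [hn.2], by linarith [hn.1]⟩
  linarith

theorem asymp_target {p : ℝ} (hp : 1 < p) (hX : WCompact X) (hA : Asymp X p) (I : SIso X Y) :
    Asymp Y p := by
  intro v η τ h0 hτ
  have hp0 : 0 < p := one_pos.trans hp
  rcases (ge_of_tendsto' hτ fun n => norm_nonneg _).eq_or_lt with h | hτ0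
  · subst h
    have hη0 : Tendsto η atTop (𝓝 0) := tendsto_zero_iff_norm_tendsto_zero.2 hτ
    simpa [lN, Real.zero_rpow hp0.ne', Real.rpow_rpow_inv (norm_nonneg v) hp0.ne'] using
      (tendsto_const_nhds (x := v)).add hη0 |>.norm
  refine Metric.tendsto_nhds.2 fun κ hκ => ?_
  have hcont : ContinuousAt (fun a => lN p a τ) ‖v‖ :=
    tendsto_lN hp0 tendsto_id tendsto_const_nhds
  obtain ⟨θ, hθ, hθ'⟩ := Metric.continuousAt_iff.1 hcont (κ / 4) (by positivity)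
  set κ' := min (θ / 2) (κ / 4) with hκ'
  have hκ'0 : 0 < κ' := lt_min (by positivity) (by positivity)
  have hlim : Tendsto (fun ε : ℝ => (2 * ‖v‖) ^ p * ε ^ (p - 1)) (𝓝[>] 0) (𝓝 0) := by
    have h := ((Real.continuous_rpow_const (show 0 ≤ p - 1 by linarith)).tendsto 0).const_mul
      ((2 * ‖v‖) ^ p)
    rw [Real.zero_rpow (by linarith), mul_zero] at h
    exact h.mono_left nhdsWithin_le_nhds
  have hlim2 : Tendsto (fun ε : ℝ => ε * ‖v‖) (𝓝[>] 0) (𝓝 0) := by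
    simpa using ((continuous_mul_const ‖v‖).tendsto 0).mono_left nhdsWithin_le_nhds
  obtain ⟨ε, ⟨hε1, hε2⟩, hε⟩ := (((hlim.eventually (gt_mem_nhds (half_pos hκ'0))).and
    (hlim2.eventually (gt_mem_nhds one_pos))).and self_mem_nhdsWithin).exists
  replace hε : 0 < ε := hε
  set r := min (ε * κ' / 8) (1 / 2) with hr
  have hr0 : 0 < r := lt_min (by positivity) (by norm_num)
  obtain ⟨N, hN⟩ := eventually_atTop.1 (hτ.eventually (lt_mem_nhds (half_lt_self hτ0)))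
  let u : ℕ → Y := fun n => ‖η (n + N)‖⁻¹ • η (n + N)
  have hu1 : ∀ n, ‖u n‖ = 1 := fun n => by
    have : 0 < ‖η (n + N)‖ := (half_pos hτ0).trans (hN _ (Nat.le_add_left N n))
    rw [norm_smul, norm_inv, norm_norm, inv_mul_cancel₀ this.ne']
  have hu0 : WTendsto u 0 := (h0.comp (tendsto_add_atTop_nat N)).smul (C := (τ / 2)⁻¹) fun n => by
    rw [abs_inv, abs_norm]
    exact inv_anti₀ (half_pos hτ0) (hN _ (Nat.le_add_left N n)).le
  have hεv : ‖ε • v‖ = ε * ‖v‖ := by rw [norm_smul, Real.norm_of_nonneg hε.le]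
  obtain ⟨n, hn1, hn2⟩ := ((smooth_bound hp hX hA I hu1 hu0 (w := ε • v)
    (by rw [hεv]; exact hε2.le) hr0).and (smooth_bound hp hX hA I hu1 hu0 (w := -(ε • v))
    (by rw [norm_neg, hεv]; exact hε2.le) hr0)).exists
  rw [norm_neg, hεv] at hn2
  rw [hεv] at hn1
  obtain ⟨Tg, hC, hy0⟩ := exists_tangent_sub hX I (((countable_range η).insert v).insert (u n))
    (mem_insert _ _) (hu1 n) hr0 (min_le_right _ _)
  let η' : ℕ → Tg.M := fun m => ⟨η m, hC (mem_insert_of_mem _ (mem_insert_of_mem _ ⟨m, rfl⟩))⟩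
  let v' : Tg.M := ⟨v, hC (mem_insert_of_mem _ (mem_insert _ _))⟩
  let u' : Tg.M := ⟨u n, hC (mem_insert _ _)⟩
  have hφv : |Tg.φ v| ≤ κ' := by
    have e1 := (le_abs_self _).trans (Tg.φ_le (u' + ε • v'))
    have e2 := (le_abs_self _).trans (Tg.φ_le (u' - ε • v'))
    simp only [u', v', Submodule.coe_add, Submodule.coe_sub, Submodule.coe_smul, map_add, map_sub,
      map_smul, smul_eq_mul] at e1 e2
    rw [← sub_eq_add_neg] at hn2
    have e3 : ε * |Tg.φ v| ≤ (2 * (ε * ‖v‖)) ^ p + r + 2 * r := by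
      rw [← abs_of_pos hε, ← abs_mul, abs_of_pos hε]
      exact abs_le.2 ⟨by linarith, by linarith⟩
    have e4 : (2 * (ε * ‖v‖)) ^ p = ε * ((2 * ‖v‖) ^ p * ε ^ (p - 1)) := by
      rw [show 2 * (ε * ‖v‖) = 2 * ‖v‖ * ε by ring, Real.mul_rpow (by positivity) hε.le,
        Real.rpow_sub hε, Real.rpow_one]
      field_simp
    have e5 : r ≤ ε * κ' / 8 := min_le_left _ _
    have e6 : ε * ((2 * ‖v‖) ^ p * ε ^ (p - 1)) ≤ ε * (κ' / 2) :=
      mul_le_mul_of_nonneg_left hε1.le hε.le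
    exact le_of_mul_le_mul_left (by linarith) hε
  have key := Tg.asymp hA (Tg.φ_proj v') (η := η') h0 hτ
  have hd : ‖(Tg.proj v' : Y) - v‖ ≤ κ' := (Tg.norm_proj_sub v').trans_le hφv
  have hval : dist (lN p ‖(Tg.proj v' : Y)‖ τ) (lN p ‖v‖ τ) < κ / 4 := hθ' (by
    rw [Real.dist_eq]
    exact ((abs_norm_sub_norm_le _ _).trans hd).trans_lt
      ((min_le_left _ _).trans_lt (half_lt_self hθ)))
  filter_upwards [Metric.tendsto_nhds.1 key (κ / 4) (by positivity)] with m hm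
  have h1 : dist ‖v + η m‖ ‖(Tg.proj v' : Y) + η m‖ ≤ κ / 4 := by
    rw [Real.dist_eq]
    refine (abs_norm_sub_norm_le _ _).trans ?_
    rw [add_sub_add_right_eq_sub, norm_sub_rev]
    exact hd.trans (min_le_right _ _)
  have h2 := dist_triangle4 ‖v + η m‖ ‖(Tg.proj v' : Y) + η m‖ (lN p ‖(Tg.proj v' : Y)‖ τ)
    (lN p ‖v‖ τ)
  linarith

theorem wCompact_target (hX : WCompact X) (I : SIso X Y) {y0 : Y} (hy0 : ‖y0‖ = 1) :
    WCompact Y := by
  rintro y ⟨C, hC⟩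
  obtain ⟨Tg, hCM, -⟩ := exists_tangent_sub hX I ((countable_range y).insert y0)
    (mem_insert _ _) hy0 (show (0 : ℝ) < 1 / 2 by norm_num) le_rfl
  let y' : ℕ → Tg.M := fun n => ⟨y n, hCM (mem_insert_of_mem _ ⟨n, rfl⟩)⟩
  have hφb : ∀ n, |Tg.φ (y n)| ≤ C := fun n => (Tg.φ_le (y' n)).trans (hC n)
  obtain ⟨a, k, hk, ha⟩ := exists_tendsto_subseq hφb
  let K : Submodule ℝ Tg.M := LinearMap.ker (Tg.φ.comp Tg.M.subtypeL).toLinearMap
  have : CompleteSpace Tg.M := Tg.closed.completeSpace_coe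
  have : CompleteSpace K := (Tg.φ.comp Tg.M.subtypeL).isClosed_ker.completeSpace_coe
  let D' : K →ₗᵢ[ℝ] X := ⟨Tg.D.toLinearMap.comp K.subtype, fun h => Tg.iso _ h.2⟩
  let q : ℕ → K := fun n => ⟨Tg.proj (y' n), Tg.φ_proj _⟩
  obtain ⟨z, k', hk', hz⟩ := hX (fun n => D' (q (k n))) ⟨2 * C, fun n => by
    rw [D'.norm_map]
    change ‖(Tg.proj (y' (k n)) : Y)‖ ≤ 2 * C
    have h1 := norm_le_norm_add_norm_sub' (Tg.proj (y' (k n)) : Y) (y' (k n) : Y)
    rw [Tg.norm_proj_sub] at h1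
    have h2 : ‖(y' (k n) : Y)‖ ≤ C := hC _
    have h3 : |Tg.φ (y' (k n) : Y)| ≤ C := hφb _
    linarith⟩
  obtain ⟨h, hh⟩ : z ∈ range D' := by
    exact mem_of_wTendsto (M := LinearMap.range D'.toLinearMap)
      (by rw [LinearMap.coe_range]; exact D'.isometry.isClosedEmbedding.isClosed_range)
      (fun n => LinearMap.mem_range_self _ _) hz
  refine ⟨((h : Tg.M) : Y) + a • (Tg.e : Y), k ∘ k', hk.comp hk', fun l => ?_⟩
  obtain ⟨g, hg, -⟩ := exists_extension_norm_eq (LinearMap.range D'.toLinearMap)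
    ((l.comp (Tg.M.subtypeL.comp K.subtypeL)).comp
      D'.equivRange.symm.toLinearIsometry.toContinuousLinearMap)
  have hgD : ∀ x : K, g (D' x) = l ((x : Tg.M) : Y) := fun x => by
    have := hg (D'.equivRange x)
    simpa using this
  have h1 : Tendsto (fun n => l ((q (k (k' n)) : Tg.M) : Y)) atTop (𝓝 (l ((h : Tg.M) : Y))) := by
    simpa [← hh, hgD] using hz g
  have h2 : Tendsto (fun n => Tg.φ (y (k (k' n))) * l Tg.e) atTop (𝓝 (a * l Tg.e)) :=
    (ha.comp hk'.tendsto_atTop).mul_const _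
  simpa [q, y', Tangent.proj] using h1.add h2

end Vale.Agent.P084.MP
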